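import Vale.Agent.P042.H727.Star
import Vale.Agent.P042.H984.End2

/-!
# The end theorem with an extra family of moduli (helper727, row F.INF of `P042`)

`star_dyadic` = `interp_star` with the numerical hypotheses discharged for dyadic scales;
`star_sets` = the version for sets of primes: the main family `FB B` and, for every modulus
`m ∈ M` (all prime factors of `m` are large), the family `FM m B`.

* (A*) the total absolute mass of the moduli `m > Z` is at most `δ0 Z^{-c4}` times the bound of (F1);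
* (E*), (D*) for the small moduli (`log m ≤ Lm`): `FM m` is a convolution of the main family with
  `wm m`, and `wm m` satisfies the bound (D) up to a factor `m^{k2}`.
-/

set_option linter.unusedSectionVars false

namespace Vale.Agent.P042.H727

open Finset Vale.Agent.P042.H384 Vale.Agent.P042.H984
open Vale.Agent.P042.H159 (MC)
open Vale.Agent.P042.H284 (co tyi tyi_apply tyi_degree tyi_empty sum_tyi euler co_zero euler_j)

universe u v

/-- interpolation with an extra family of moduli, dyadic scales, capped radii -/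
theorem star_dyadic {K c cr C1 k2 c4 : ℝ} (hK : 0 ≤ K) (hc : 0 < c) (hcr0 : 0 < cr)
    (hcr : cr ≤ 1 / 2) (hC1 : 0 ≤ C1) (hk2 : 0 ≤ k2) (hc4 : 0 < c4) :
    ∃ g0 : ℝ, 0 < g0 ∧ ∃ δ0 : ℝ, 0 < δ0 ∧ ∃ l0 : ℕ,
      ∀ {J : Type u} [Fintype J] [DecidableEq J] (sc : J → ℕ)
      (b0 : ℕ) (g : ℝ) (Bd rho : J → ℝ) (F W : (J →₀ ℕ) → ℝ) (S T : Finset (J →₀ ℕ)),
      Function.Injective sc → (∀ j, l0 ≤ sc j) → 0 ≤ g → g ≤ g0 →
      (∀ j, 1 ≤ Bd j) → (∀ j, Bd j ≤ Real.exp (g * ((sc j : ℝ) * Real.log 2))) →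
      C1 + 900 * ∑ j, Bd j + Fintype.card J + 3 ≤ b0 →
      (∀ j, Real.exp 3 ≤ rho j) →
      (∀ (j : J) (k : ℕ), k ≠ 0 → k ≤ b0 → (k : ℝ) ≤ Real.exp ((sc j : ℝ) * Real.log 2) →
        cr * Real.log k ≤ Real.log (rho j)) →
      F 0 = 1 → (∀ a, a ∉ S → F a = 0) →
      (∀ a : J →₀ ℕ, F a ≠ 0 → ∀ j, (a j : ℝ) ≤ Real.exp ((sc j : ℝ) * Real.log 2)) →
      (∀ a : J →₀ ℕ, a.degree ≤ b0 → (a.degree : ℝ) * F a
        = ∑ x ∈ HasAntidiagonal.antidiagonal a, (x.1.degree : ℝ) * W x.1 * F x.2) →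
      0 ∉ T →
      (∀ r : J → ℝ, (∀ j, 0 ≤ r j) → (∀ j, r j ≤ rho j) →
        ∀ a : J →₀ ℕ, |F a| * mo r a ≤ Real.exp (C1 + ∑ j, Bd j * (r j + r j ^ 2))) →
      (∀ r : J → ℝ, (∀ j, 0 ≤ r j) → ∑ m ∈ T, |W m| * mo r m
          ≤ ∑ j, Bd j * (r j + r j ^ 2)) →
      (∀ m : J →₀ ℕ, m ≠ 0 → m ∉ T → m.degree ≤ b0 →
        |W m| ≤ Real.exp (K * m.degree * Real.log (lf (fun j => (sc j : ℝ) * Real.log 2) m)
          - c * lf (fun j => (sc j : ℝ) * Real.log 2) m)) →
      ∀ (M : Finset ℕ) (Psi Wm : ℕ → (J →₀ ℕ) → ℝ) (Lm : ℝ),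
      (∀ m ∈ M, 2 ≤ m) → 0 ≤ Lm → (∀ j, (b0 : ℝ) * ((sc j : ℝ) * Real.log 2) ≤ Lm) →
      (∀ m ∈ M, ∀ a, a ∉ S → Psi m a = 0) →
      (∀ m ∈ M, ∀ a : J →₀ ℕ, Psi m a ≠ 0 →
        ∀ j, (a j : ℝ) ≤ Real.exp ((sc j : ℝ) * Real.log 2)) →
      (∀ Z : ℝ, 1 ≤ Z → ∀ r : J → ℝ, (∀ j, 0 ≤ r j) → (∀ j, r j ≤ rho j) →
        ∀ a : J →₀ ℕ, (∑ m ∈ M.filter (fun m : ℕ => Z < (m : ℝ)), |Psi m a|) * mo r a ≤
          δ0 * Real.exp (-(c4 * Real.log Z)) * Real.exp (C1 + ∑ j, Bd j * (r j + r j ^ 2))) →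
      (∀ m ∈ M, Real.log m ≤ Lm → ∀ a : J →₀ ℕ, a.degree ≤ b0 →
        Psi m a = ∑ x ∈ HasAntidiagonal.antidiagonal a, Wm m x.1 * F x.2) →
      (∀ m ∈ M, Real.log m ≤ Lm → |Wm m 0| ≤ Real.exp (k2 * Real.log m)) →
      (∀ m ∈ M, Real.log m ≤ Lm → ∀ a : J →₀ ℕ, a ≠ 0 → a.degree ≤ b0 →
        |Wm m a| ≤ Real.exp (k2 * Real.log m
          + K * a.degree * Real.log (lf (fun j => (sc j : ℝ) * Real.log 2) a)
          - c * lf (fun j => (sc j : ℝ) * Real.log 2) a)) →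
      1 / 2 * Real.exp (-∑ m ∈ T, |W m|) ≤ ∑ a ∈ S, F a + ∑ m ∈ M, ∑ a ∈ S, Psi m a := by
  have hl2 : 0 < Real.log 2 := Real.log_pos (by norm_num)
  set e := c / (4 * (K + 1)) with he
  have he0 : 0 < e := by positivity
  have hKe : K * e ≤ c / 4 := by
    rw [he]
    rw [mul_div_assoc', div_le_div_iff₀ (by positivity) (by norm_num)]
    nlinarith
  set ph := cr / (cr + K + 1) with hphd
  have hph0 : 0 < ph := by positivity
  have hph1 : ph ≤ 1 := by rw [hphd, div_le_one (by positivity)]; linarith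
  have hph : ph * K ≤ (1 - ph) * cr := by
    have h1 : ph * (cr + K + 1) = cr := by rw [hphd]; field_simp
    nlinarith
  set c1 := min 1 (ph * c / (4 * (k2 + 1))) with hc1d
  have hc10 : 0 < c1 := lt_min one_pos (by positivity)
  have hc11 : c1 ≤ 1 := min_le_left _ _
  have hc1k : c1 * (k2 + 1) ≤ ph * c / 4 := by
    have h1 : c1 ≤ ph * c / (4 * (k2 + 1)) := min_le_right _ _
    have h2 := mul_le_mul_of_nonneg_right h1 (by linarith : 0 ≤ k2 + 1)
    refine h2.trans (le_of_eq ?_)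
    field_simp
  set g0 := min (ph * c / 8) (c1 * c4 / 2) with hg0
  have hg0p : 0 < g0 := lt_min (by positivity) (by positivity)
  have hg0a : g0 ≤ ph * c / 8 := min_le_left _ _
  have hg0b : g0 ≤ c1 * c4 / 2 := min_le_right _ _
  obtain ⟨l1', h1'⟩ := geom_small.{u} (d := e / 4) (e := e / 4) (by positivity) (by positivity)
  obtain ⟨l2', h2'⟩ := geom_small.{u} (d := c / 4) (e := 1 / 4) (by positivity) (by norm_num)
  obtain ⟨l3', h3'⟩ := geom_small.{u} (d := g0) (e := Real.exp (-C1) / 64 / Real.exp 5)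
    hg0p (by positivity)
  obtain ⟨l4', h4'⟩ := log_small (d := e / 2) (by positivity)
  refine ⟨g0, hg0p, Real.exp (-C1) / 64, by positivity, max (max l1' l2') (max l3' l4'), ?_⟩
  intro J _ _ sc b0 g Bd rho F W S T hinj hsc0 hg hgg hB1 hBg hb0 hrho hrhok hF0 hFS hFn hE hT0
    hF1 hT hD M Psi Wm Lm hM2 hLm0 hLm hPS hPn hA hEm hDm0 hDm
  set ell : J → ℝ := fun j => (sc j : ℝ) * Real.log 2 with hell
  have hm1 : ∀ j, l1' ≤ sc j := fun j => (le_trans (by simp) (hsc0 j))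
  have hm2 : ∀ j, l2' ≤ sc j := fun j => (le_trans (by simp) (hsc0 j))
  have hm3 : ∀ j, l3' ≤ sc j := fun j => (le_trans (by simp) (hsc0 j))
  have hm4 : ∀ j, l4' ≤ sc j := fun j => (le_trans (by simp) (hsc0 j))
  have hell2 : ∀ j, 2 ≤ ell j := fun j => (h4' (sc j) (hm4 j)).1
  have hell1 : ∀ j, 1 ≤ ell j := fun j => by linarith [hell2 j]
  have hlog : ∀ j, Real.log (ell j) ≤ e / 2 * ell j := fun j => (h4' (sc j) (hm4 j)).2
  have hsum1 : ∑ j, Real.exp (-(e / 4 * ell j)) ≤ e / 4 := h1' l1' le_rfl sc hinj hm1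
  have hsum2 : ∑ j, Real.exp (-(c / 4 * ell j)) ≤ 1 / 4 := h2' l2' le_rfl sc hinj hm2
  have hsum3 : ∑ j, Real.exp (-(g0 * ell j)) ≤ Real.exp (-C1) / 64 / Real.exp 5 :=
    h3' l3' le_rfl sc hinj hm3
  have hlogB : ∀ j, Real.log (Bd j) ≤ g0 * ell j := by
    intro j
    have := Real.log_le_log (lt_of_lt_of_le one_pos (hB1 j)) (hBg j)
    rw [Real.log_exp] at this
    refine this.trans (mul_le_mul_of_nonneg_right hgg (by linarith [hell1 j]))
  have hexp1 : Real.exp (-C1) ≤ 1 := by rw [Real.exp_le_one_iff]; linarith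
  -- the three sums with `g0`
  have hS : ∀ (A d : ℝ), A ≤ 5 → 2 * g0 ≤ d →
      ∑ j, Real.exp (Real.log (Bd j) + A - d * ell j) ≤ Real.exp (-C1) / 64 := by
    intro A d hA' hd
    have h5 : ∀ j, Real.exp (Real.log (Bd j) + A - d * ell j)
        ≤ Real.exp 5 * Real.exp (-(g0 * ell j)) := by
      intro j
      rw [← Real.exp_add]
      refine Real.exp_le_exp.mpr ?_
      have h7 := hlogB j
      have h8 := hell1 j
      nlinarith
    refine (Finset.sum_le_sum fun j _ => h5 j).trans ?_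
    rw [← Finset.mul_sum]
    calc Real.exp 5 * ∑ j, Real.exp (-(g0 * ell j))
        ≤ Real.exp 5 * (Real.exp (-C1) / 64 / Real.exp 5) :=
          mul_le_mul_of_nonneg_left hsum3 (Real.exp_pos _).le
      _ = Real.exp (-C1) / 64 := by field_simp
  refine interp_star F W S T b0 ell Bd rho C1 K (c - K * e) (c / 2) cr ph
    hF0 hFS hrho ?_ hE hT0 hF1 hT ?_ hB1 hC1 hcr0 hcr hK hph0.le hph1 hph ?_ ?_ hb0
    M hM2 Psi Wm hPS ?_ (Real.exp (-C1) / 64) c4 c1 k2 Lm (by positivity) ?_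
    (fun j => by linarith [hell1 j]) (by linarith) hc10.le hk2 hA ?_ hEm ?_ ?_ ?_
  · intro a ha hab j hj
    exact hrhok j (a j) hj ((Finsupp.le_degree j a).trans hab) (hFn a ha j)
  · intro m hm hmT hmb
    exact gibbs_bound hK hell1 hlog hsum1 hm (hD m hm hmT hmb)
  · refine le_trans (Finset.sum_le_sum fun j _ => Real.exp_le_exp.mpr ?_) hsum2
    have := hell1 j
    nlinarith
  · have h1 := hS 4 (ph * (c / 2)) (by norm_num) (by linarith)
    have h2 : 0 < Real.exp (-C1) := Real.exp_pos _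
    linarith
  · intro m hm a ha hab j hj
    exact hrhok j (a j) hj ((Finsupp.le_degree j a).trans hab) (hPn m hm a ha j)
  · rw [div_mul_eq_mul_div, ← Real.exp_add]
    simp
  · -- `c1 * lf a ≤ Lm`
    intro a hab
    by_cases ha0 : a = 0
    · subst ha0
      have h1 : lf ell (0 : J →₀ ℕ) = 0 := by simp [lf]
      rw [h1, mul_zero]
      exact hLm0
    · obtain ⟨j0, hj0⟩ : ∃ j, a j ≠ 0 := by
        by_contra h
        push Not at h
        exact ha0 (Finsupp.ext h)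
      obtain ⟨jm, _, hjm⟩ := Finset.exists_max_image Finset.univ ell ⟨j0, Finset.mem_univ _⟩
      have h1 : lf ell a ≤ a.degree * ell jm := by
        unfold lf
        rw [degree_eq_sum_real, Finset.sum_mul]
        refine Finset.sum_le_sum fun j _ => ?_
        exact mul_le_mul_of_nonneg_left (hjm j (Finset.mem_univ _)) (Nat.cast_nonneg _)
      have h2 : (a.degree : ℝ) ≤ b0 := by exact_mod_cast hab
      have h3 := hLm jm
      have h4 : 0 ≤ ell jm := by linarith [hell1 jm]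
      have h5 : lf ell a ≤ Lm := h1.trans ((mul_le_mul_of_nonneg_right h2 h4).trans h3)
      have h6 : 0 ≤ lf ell a := lf_nonneg (fun j => by linarith [hell1 j]) a
      nlinarith
  · -- `(D*)`
    intro m hm hml a hab
    by_cases ha0 : a = 0
    · subst ha0
      refine (hDm0 m hm hml).trans (Real.exp_le_exp.mpr (le_of_eq ?_))
      simp [lf, Lf, xl]
    · have h1 : |Wm m a| * Real.exp (-(k2 * Real.log m)) ≤
          Real.exp (K * a.degree * Real.log (lf ell a) - c * lf ell a) := by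
        have h2 := mul_le_mul_of_nonneg_right (hDm m hm hml a ha0 hab)
          (Real.exp_pos (-(k2 * Real.log m))).le
        refine h2.trans (le_of_eq ?_)
        rw [← Real.exp_add]
        congr 1
        ring
      have h3 := gibbs_bound hK hell1 hlog hsum1 ha0 h1
      have h4 := mul_le_mul_of_nonneg_right h3 (Real.exp_pos (k2 * Real.log m)).le
      rw [mul_assoc, ← Real.exp_add, ← Real.exp_add, neg_add_cancel, Real.exp_zero, mul_one] at h4
      refine h4.trans (Real.exp_le_exp.mpr (le_of_eq ?_))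
      ring
  · have h1 := hS 4 (c1 * c4) (by norm_num) (by linarith)
    linarith
  · refine hS 5 (ph * (c / 2) - c1 * (k2 + 1)) le_rfl ?_
    nlinarith

/-- the sum over the antidiagonal of `a.mapDomain some` -/
lemma sum_anti_some {J : Type u} [DecidableEq J] (a : J →₀ ℕ)
    (f : (Option J →₀ ℕ) → (Option J →₀ ℕ) → ℝ) :
    ∑ y ∈ HasAntidiagonal.antidiagonal (a.mapDomain some), f y.1 y.2
      = ∑ x ∈ HasAntidiagonal.antidiagonal a, f (x.1.mapDomain some) (x.2.mapDomain some) := by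
  classical
  symm
  refine Finset.sum_bij (fun x _ => (x.1.mapDomain some, x.2.mapDomain some)) ?_ ?_ ?_ ?_
  · intro x hx
    rw [HasAntidiagonal.mem_antidiagonal] at hx ⊢
    rw [← Finsupp.mapDomain_add, hx]
  · intro x _ y _ hxy
    have h1 := congrArg Prod.fst hxy
    have h2 := congrArg Prod.snd hxy
    exact Prod.ext (Finsupp.mapDomain_injective (Option.some_injective J) h1)
      (Finsupp.mapDomain_injective (Option.some_injective J) h2)
  · intro y hy
    rw [HasAntidiagonal.mem_antidiagonal] at hy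
    have hnone : y.1 none = 0 ∧ y.2 none = 0 := by
      have h1 := DFunLike.congr_fun hy none
      rw [Finsupp.add_apply, Finsupp.mapDomain_of_notMem_range _ _ (by simp)] at h1
      omega
    have hsurj : ∀ b : Option J →₀ ℕ, b none = 0 → ∃ b' : J →₀ ℕ, b'.mapDomain some = b := by
      intro b hb
      refine ⟨Finsupp.comapDomain some b (Option.some_injective J).injOn, ?_⟩
      refine Finsupp.mapDomain_comapDomain some (Option.some_injective J) b ?_
      intro o ho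
      rcases o with _ | j
      · exfalso
        rw [Finset.mem_coe, Finsupp.mem_support_iff] at ho
        exact ho hb
      · exact ⟨j, rfl⟩
    obtain ⟨b1, hb1⟩ := hsurj y.1 hnone.1
    obtain ⟨b2, hb2⟩ := hsurj y.2 hnone.2
    refine ⟨(b1, b2), ?_, Prod.ext hb1 hb2⟩
    rw [HasAntidiagonal.mem_antidiagonal]
    refine Finsupp.mapDomain_injective (Option.some_injective J) ?_
    rw [Finsupp.mapDomain_add, hb1, hb2, hy]
  · intro x _
    rfl

/-- Euler's identity in the extra variable: the part of order one in `none`. -/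
lemma euler_none {J : Type u} [Fintype J] [DecidableEq J] {z w : Multiset (Option J) → ℝ}
    (h : MC z w) (a : J →₀ ℕ) :
    co z (a.mapDomain some + Finsupp.single none 1)
      = ∑ x ∈ HasAntidiagonal.antidiagonal a,
        co w (x.1.mapDomain some + Finsupp.single none 1) * co z (x.2.mapDomain some) := by
  classical
  have h1 := euler_j h (a.mapDomain some + Finsupp.single none 1) none
  have h0 : ∀ b : J →₀ ℕ, (b.mapDomain some : Option J →₀ ℕ) none = 0 := fun b =>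
    Finsupp.mapDomain_of_notMem_range _ _ (by simp)
  rw [Finsupp.add_apply, h0, Finsupp.single_eq_same] at h1
  push_cast at h1
  rw [one_mul] at h1
  rw [h1, ← sum_anti_some a fun x y => co w (x + Finsupp.single none 1) * co z y]
  symm
  refine Finset.sum_bij_ne_zero (fun x _ _ => (x.1 + Finsupp.single none 1, x.2)) ?_ ?_ ?_ ?_
  · intro x hx _
    rw [HasAntidiagonal.mem_antidiagonal] at hx ⊢
    rw [← hx]
    show x.1 + Finsupp.single none 1 + x.2 = x.1 + x.2 + Finsupp.single none 1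
    exact add_right_comm _ _ _
  · intro x _ _ y _ _ hxy
    have h2 := congrArg Prod.fst hxy
    have h3 := congrArg Prod.snd hxy
    exact Prod.ext (add_right_cancel h2) h3
  · intro y hy hne
    rw [HasAntidiagonal.mem_antidiagonal] at hy
    have h2 : y.1 none ≠ 0 := by
      intro h3
      rw [h3] at hne
      simp at hne
    have h3 : Finsupp.single none 1 ≤ y.1 := by
      rw [Finsupp.single_le_iff]
      omega
    obtain ⟨b, hb⟩ := le_iff_exists_add.mp h3
    have h4 : b + y.2 = a.mapDomain some := by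
      have h5 : b + y.2 + Finsupp.single none 1 = a.mapDomain some + Finsupp.single none 1 := by
        rw [← hy, hb]
        rw [add_comm (Finsupp.single none 1) b, add_right_comm]
      exact add_right_cancel h5
    have hy1 : y.1 none = 1 := by
      have h6 := DFunLike.congr_fun hy none
      rw [Finsupp.add_apply, Finsupp.add_apply, h0, Finsupp.single_eq_same] at h6
      omega
    have hy' : y = (b + Finsupp.single none 1, y.2) := by
      refine Prod.ext ?_ rfl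
      show y.1 = b + Finsupp.single none 1
      rw [hb, add_comm]
    refine ⟨(b, y.2), ?_, ?_, hy'.symm⟩
    · rw [HasAntidiagonal.mem_antidiagonal]
      exact h4
    · intro h7
      apply hne
      rw [hy1, Nat.cast_one, one_mul]
      rw [hy']
      exact h7
  · intro x hx _
    rw [HasAntidiagonal.mem_antidiagonal] at hx
    have h2 : x.1 none = 0 := by
      have h6 := DFunLike.congr_fun hx none
      rw [Finsupp.add_apply, h0] at h6
      omega
    show co w (x.1 + Finsupp.single none 1) * co z x.2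
      = (((x.1 + Finsupp.single none 1 : Option J →₀ ℕ) none : ℕ) : ℝ)
        * co w (x.1 + Finsupp.single none 1) * co z x.2
    rw [Finsupp.add_apply, h2, Finsupp.single_eq_same]
    simp

/-- **End theorem with an extra family of moduli** -/
theorem star_sets {K c cr C1 k2 c4 : ℝ} (hK : 0 ≤ K) (hc : 0 < c) (hcr0 : 0 < cr)
    (hcr : cr ≤ 1 / 2) (hC1 : 0 ≤ C1) (hk2 : 0 ≤ k2) (hc4 : 0 < c4) :
    ∃ g0 : ℝ, 0 < g0 ∧ ∃ δ0 : ℝ, 0 < δ0 ∧ ∃ l0 : ℕ,
      ∀ {J : Type u} [Fintype J] [DecidableEq J] (sc : J → ℕ)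
      (b0 : ℕ) (g : ℝ) (Bd rho : J → ℝ) {ι : Type v} [Fintype ι] [DecidableEq ι] (ty : ι → J)
      (FB : Finset ι → ℝ) (DD : Finset (Finset ι)) (z w : Multiset J → ℝ),
      Function.Injective sc → (∀ j, l0 ≤ sc j) → 0 ≤ g → g ≤ g0 →
      (∀ j, 1 ≤ Bd j) → (∀ j, Bd j ≤ Real.exp (g * ((sc j : ℝ) * Real.log 2))) →
      C1 + 900 * ∑ j, Bd j + Fintype.card J + 3 ≤ b0 →
      (∀ j, Real.exp 3 ≤ rho j) →
      (∀ (j : J) (k : ℕ), k ≠ 0 → k ≤ b0 → (k : ℝ) ≤ Real.exp ((sc j : ℝ) * Real.log 2) →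
        cr * Real.log k ≤ Real.log (rho j)) →
      (∀ j, ((Finset.univ.filter (fun i => ty i = j)).card : ℝ)
        ≤ Real.exp ((sc j : ℝ) * Real.log 2)) →
      MC z w →
      (∀ a : J →₀ ℕ, a.degree ≤ b0 → co z a
        = ∑ B ∈ (Finset.univ : Finset ι).powerset.filter (fun B => tyi ty B = a), FB B) →
      FB ∅ = 1 → (∀ B : Finset ι, B.card ≤ b0 → B ∈ DD) →
      (∀ r : J → ℝ, (∀ j, 0 ≤ r j) → (∀ j, r j ≤ rho j) →
        ∑ B ∈ DD, |FB B| * ∏ i ∈ B, r (ty i)
          ≤ Real.exp (C1 + ∑ j, Bd j * (r j + r j ^ 2))) →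
      (∀ j, |co w (Finsupp.single j 1)| ≤ Bd j) →
      (∀ j, ∑ i, |co w (Finsupp.single i 1 + Finsupp.single j 1)| ≤ Bd j) →
      (∀ a : J →₀ ℕ, 3 ≤ a.degree → a.degree ≤ b0 →
        |co w a| ≤ Real.exp (K * a.degree * Real.log (lf (fun j => (sc j : ℝ) * Real.log 2) a)
          - c * lf (fun j => (sc j : ℝ) * Real.log 2) a)) →
      -- the extra moduli
      ∀ (M : Finset ℕ) (FM : ℕ → Finset ι → ℝ) (DDm : ℕ → Finset (Finset ι))
        (wm : ℕ → (J →₀ ℕ) → ℝ) (Lm : ℝ),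
      (∀ m ∈ M, 2 ≤ m) → 0 ≤ Lm → (∀ j, (b0 : ℝ) * ((sc j : ℝ) * Real.log 2) ≤ Lm) →
      (∀ m ∈ M, Real.log m ≤ Lm → ∀ B : Finset ι, B.card ≤ b0 → B ∈ DDm m) →
      (∀ Z : ℝ, 1 ≤ Z → ∀ r : J → ℝ, (∀ j, 0 ≤ r j) → (∀ j, r j ≤ rho j) →
        ∑ m ∈ M.filter (fun m : ℕ => Z < (m : ℝ)), ∑ B ∈ DDm m, |FM m B| * ∏ i ∈ B, r (ty i)
          ≤ δ0 * Real.exp (-(c4 * Real.log Z)) * Real.exp (C1 + ∑ j, Bd j * (r j + r j ^ 2))) →
      (∀ m ∈ M, Real.log m ≤ Lm → ∀ a : J →₀ ℕ, a.degree ≤ b0 →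
        ∑ B ∈ (Finset.univ : Finset ι).powerset.filter (fun B => tyi ty B = a), FM m B
          = ∑ x ∈ HasAntidiagonal.antidiagonal a, wm m x.1 * co z x.2) →
      (∀ m ∈ M, Real.log m ≤ Lm → |wm m 0| ≤ Real.exp (k2 * Real.log m)) →
      (∀ m ∈ M, Real.log m ≤ Lm → ∀ a : J →₀ ℕ, a ≠ 0 → a.degree ≤ b0 →
        |wm m a| ≤ Real.exp (k2 * Real.log m
          + K * a.degree * Real.log (lf (fun j => (sc j : ℝ) * Real.log 2) a)
          - c * lf (fun j => (sc j : ℝ) * Real.log 2) a)) →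
      1 / 2 * Real.exp (-(2 * ∑ j, Bd j)) ≤ ∑ B ∈ DD, FB B + ∑ m ∈ M, ∑ B ∈ DDm m, FM m B := by
  obtain ⟨g0, hg0, δ0, hδ0, l0, H⟩ := star_dyadic.{u} hK hc hcr0 hcr hC1 hk2 hc4
  refine ⟨g0, hg0, δ0, hδ0, l0, ?_⟩
  intro J _ _ sc b0 g Bd rho ι _ _ ty FB DD z w hinj hsc0 hg hgg hB1 hBg hb0 hrho hrhok hcard hMC
    hz hFB0 hDD hF1 hP1 hP2 hD M FM DDm wm Lm hM2 hLm0 hLm hDDm hA hEm hDm0 hDm
  classical
  set F : (J →₀ ℕ) → ℝ := fun a => ∑ B ∈ DD.filter (fun B => tyi ty B = a), FB B with hF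
  set Psi : ℕ → (J →₀ ℕ) → ℝ :=
    fun m a => ∑ B ∈ (DDm m).filter (fun B => tyi ty B = a), FM m B with hPsi
  set S : Finset (J →₀ ℕ) := DD.image (tyi ty) ∪ M.biUnion (fun m => (DDm m).image (tyi ty))
    with hS
  have hFz : ∀ a : J →₀ ℕ, a.degree ≤ b0 → F a = co z a := by
    intro a ha
    rw [hz a ha, hF]
    refine Finset.sum_congr ?_ fun _ _ => rfl
    ext B
    rw [Finset.mem_filter, Finset.mem_filter]
    constructor
    · rintro ⟨_, h⟩
      exact ⟨Finset.mem_powerset.mpr (Finset.subset_univ _), h⟩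
    · rintro ⟨_, h⟩
      refine ⟨hDD B ?_, h⟩
      rw [← tyi_degree ty B, h]; exact ha
  have hmain := H sc b0 g Bd rho F (co w) S (T12 J) hinj hsc0 hg hgg hB1 hBg
    hb0 hrho hrhok ?_ ?_ ?_ ?_ zero_notMem_T12 ?_ ?_ ?_ M Psi wm Lm hM2 hLm0 hLm ?_ ?_ ?_ ?_
    hDm0 hDm
  · have h1 : ∑ a ∈ S, F a = ∑ B ∈ DD, FB B := by
      refine Finset.sum_fiberwise_of_maps_to (fun B hB => ?_) _
      exact Finset.mem_union_left _ (Finset.mem_image_of_mem _ hB)
    have h2 : ∀ m ∈ M, ∑ a ∈ S, Psi m a = ∑ B ∈ DDm m, FM m B := by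
      intro m hm
      refine Finset.sum_fiberwise_of_maps_to (fun B hB => ?_) _
      exact Finset.mem_union_right _
        (Finset.mem_biUnion.mpr ⟨m, hm, Finset.mem_image_of_mem _ hB⟩)
    rw [h1, Finset.sum_congr rfl h2] at hmain
    refine le_trans ?_ hmain
    refine mul_le_mul_of_nonneg_left (Real.exp_le_exp.mpr ?_) (by norm_num)
    exact neg_le_neg (T12_total (co w) _ hP1 hP2)
  · -- `F 0 = 1`
    have h1 : DD.filter (fun B => tyi ty B = 0) = {∅} := by
      ext B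
      rw [Finset.mem_filter, Finset.mem_singleton]
      constructor
      · rintro ⟨_, h⟩
        rw [← Finset.card_eq_zero, ← tyi_degree ty B, h, map_zero]
      · rintro rfl
        exact ⟨hDD _ (by simp), tyi_empty ty⟩
    show ∑ B ∈ DD.filter (fun B => tyi ty B = 0), FB B = 1
    rw [h1, Finset.sum_singleton, hFB0]
  · intro a ha
    refine Finset.sum_eq_zero fun B hB => ?_
    exfalso
    rw [Finset.mem_filter] at hB
    exact ha (Finset.mem_union_left _ (Finset.mem_image.mpr ⟨B, hB.1, hB.2⟩))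
  · intro a ha j
    obtain ⟨B, hB, _⟩ := Finset.exists_ne_zero_of_sum_ne_zero ha
    rw [Finset.mem_filter] at hB
    rw [← hB.2]
    refine le_trans ?_ (hcard j)
    exact_mod_cast H284.tyi_le ty B j
  · intro a ha
    rw [hFz a ha, euler hMC a]
    refine Finset.sum_congr rfl fun x hx => ?_
    rw [HasAntidiagonal.mem_antidiagonal] at hx
    rw [hFz x.2]
    have : a.degree = x.1.degree + x.2.degree := by rw [← hx, map_add]
    omega
  · intro r hr0 hr1 a
    have h1 : |F a| * mo r a ≤ ∑ B ∈ DD.filter (fun B => tyi ty B = a),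
        |FB B| * ∏ i ∈ B, r (ty i) := by
      refine (mul_le_mul_of_nonneg_right (Finset.abs_sum_le_sum_abs _ _) (mo_nonneg hr0 a)).trans ?_
      rw [Finset.sum_mul]
      refine Finset.sum_le_sum fun B hB => ?_
      rw [prod_ty, (Finset.mem_filter.mp hB).2]
    refine h1.trans (le_trans ?_ (hF1 r hr0 hr1))
    refine Finset.sum_le_sum_of_subset_of_nonneg (Finset.filter_subset _ _) fun B _ _ => ?_
    exact mul_nonneg (abs_nonneg _) (Finset.prod_nonneg fun i _ => hr0 _)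
  · intro r hr0
    exact T12_bound (co w) _ hP1 hP2 r hr0
  · intro m hm hmT hmb
    refine hD m ?_ hmb
    by_contra h
    push Not at h
    exact hmT (mem_T12 hm (by omega))
  · -- support of `Psi`
    intro m hm a ha
    refine Finset.sum_eq_zero fun B hB => ?_
    exfalso
    rw [Finset.mem_filter] at hB
    exact ha (Finset.mem_union_right _
      (Finset.mem_biUnion.mpr ⟨m, hm, Finset.mem_image.mpr ⟨B, hB.1, hB.2⟩⟩))
  · intro m hm a ha j
    obtain ⟨B, hB, _⟩ := Finset.exists_ne_zero_of_sum_ne_zero ha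
    rw [Finset.mem_filter] at hB
    rw [← hB.2]
    refine le_trans ?_ (hcard j)
    exact_mod_cast H284.tyi_le ty B j
  · intro Z hZ r hr0 hr1 a
    refine le_trans ?_ (hA Z hZ r hr0 hr1)
    rw [Finset.sum_mul]
    refine Finset.sum_le_sum fun m _ => ?_
    have h1 : |Psi m a| * mo r a ≤ ∑ B ∈ (DDm m).filter (fun B => tyi ty B = a),
        |FM m B| * ∏ i ∈ B, r (ty i) := by
      refine (mul_le_mul_of_nonneg_right (Finset.abs_sum_le_sum_abs _ _) (mo_nonneg hr0 a)).trans ?_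
      rw [Finset.sum_mul]
      refine Finset.sum_le_sum fun B hB => ?_
      rw [prod_ty, (Finset.mem_filter.mp hB).2]
    refine h1.trans ?_
    refine Finset.sum_le_sum_of_subset_of_nonneg (Finset.filter_subset _ _) fun B _ _ => ?_
    exact mul_nonneg (abs_nonneg _) (Finset.prod_nonneg fun i _ => hr0 _)
  · intro m hm hml a ha
    have h1 : Psi m a = ∑ B ∈ (Finset.univ : Finset ι).powerset.filter (fun B => tyi ty B = a),
        FM m B := by
      refine Finset.sum_congr ?_ fun _ _ => rfl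
      ext B
      rw [Finset.mem_filter, Finset.mem_filter]
      constructor
      · rintro ⟨_, h⟩
        exact ⟨Finset.mem_powerset.mpr (Finset.subset_univ _), h⟩
      · rintro ⟨_, h⟩
        refine ⟨hDDm m hm hml B ?_, h⟩
        rw [← tyi_degree ty B, h]; exact ha
    rw [h1, hEm m hm hml a ha]
    refine Finset.sum_congr rfl fun x hx => ?_
    rw [HasAntidiagonal.mem_antidiagonal] at hx
    rw [hFz x.2]
    have : a.degree = x.1.degree + x.2.degree := by rw [← hx, map_add]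
    omega

/-- **End theorem with an extra family of moduli, one extra type `none`**: for the small moduli
`m` the pair `(zm m, wm m)` is the moment-cumulant pair on `Option J`. -/
theorem star_sets_opt {K c cr C1 k2 c4 : ℝ} (hK : 0 ≤ K) (hc : 0 < c) (hcr0 : 0 < cr)
    (hcr : cr ≤ 1 / 2) (hC1 : 0 ≤ C1) (hk2 : 0 ≤ k2) (hc4 : 0 < c4) :
    ∃ g0 : ℝ, 0 < g0 ∧ ∃ δ0 : ℝ, 0 < δ0 ∧ ∃ l0 : ℕ,
      ∀ {J : Type u} [Fintype J] [DecidableEq J] (sc : J → ℕ)
      (b0 : ℕ) (g : ℝ) (Bd rho : J → ℝ) {ι : Type v} [Fintype ι] [DecidableEq ι] (ty : ι → J)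
      (FB : Finset ι → ℝ) (DD : Finset (Finset ι)) (z w : Multiset J → ℝ),
      Function.Injective sc → (∀ j, l0 ≤ sc j) → 0 ≤ g → g ≤ g0 →
      (∀ j, 1 ≤ Bd j) → (∀ j, Bd j ≤ Real.exp (g * ((sc j : ℝ) * Real.log 2))) →
      C1 + 900 * ∑ j, Bd j + Fintype.card J + 3 ≤ b0 →
      (∀ j, Real.exp 3 ≤ rho j) →
      (∀ (j : J) (k : ℕ), k ≠ 0 → k ≤ b0 → (k : ℝ) ≤ Real.exp ((sc j : ℝ) * Real.log 2) →
        cr * Real.log k ≤ Real.log (rho j)) →
      (∀ j, ((Finset.univ.filter (fun i => ty i = j)).card : ℝ)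
        ≤ Real.exp ((sc j : ℝ) * Real.log 2)) →
      MC z w →
      (∀ a : J →₀ ℕ, a.degree ≤ b0 → co z a
        = ∑ B ∈ (Finset.univ : Finset ι).powerset.filter (fun B => tyi ty B = a), FB B) →
      FB ∅ = 1 → (∀ B : Finset ι, B.card ≤ b0 → B ∈ DD) →
      (∀ r : J → ℝ, (∀ j, 0 ≤ r j) → (∀ j, r j ≤ rho j) →
        ∑ B ∈ DD, |FB B| * ∏ i ∈ B, r (ty i)
          ≤ Real.exp (C1 + ∑ j, Bd j * (r j + r j ^ 2))) →
      (∀ j, |co w (Finsupp.single j 1)| ≤ Bd j) →
      (∀ j, ∑ i, |co w (Finsupp.single i 1 + Finsupp.single j 1)| ≤ Bd j) →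
      (∀ a : J →₀ ℕ, 3 ≤ a.degree → a.degree ≤ b0 →
        |co w a| ≤ Real.exp (K * a.degree * Real.log (lf (fun j => (sc j : ℝ) * Real.log 2) a)
          - c * lf (fun j => (sc j : ℝ) * Real.log 2) a)) →
      -- the extra moduli
      ∀ (M : Finset ℕ) (FM : ℕ → Finset ι → ℝ) (DDm : ℕ → Finset (Finset ι))
        (zm wm : ℕ → Multiset (Option J) → ℝ) (Lm : ℝ),
      (∀ m ∈ M, 2 ≤ m) → 0 ≤ Lm → (∀ j, (b0 : ℝ) * ((sc j : ℝ) * Real.log 2) ≤ Lm) →
      (∀ m ∈ M, Real.log m ≤ Lm → ∀ B : Finset ι, B.card ≤ b0 → B ∈ DDm m) →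
      (∀ Z : ℝ, 1 ≤ Z → ∀ r : J → ℝ, (∀ j, 0 ≤ r j) → (∀ j, r j ≤ rho j) →
        ∑ m ∈ M.filter (fun m : ℕ => Z < (m : ℝ)), ∑ B ∈ DDm m, |FM m B| * ∏ i ∈ B, r (ty i)
          ≤ δ0 * Real.exp (-(c4 * Real.log Z)) * Real.exp (C1 + ∑ j, Bd j * (r j + r j ^ 2))) →
      (∀ m ∈ M, Real.log m ≤ Lm → MC (zm m) (wm m)) →
      (∀ m ∈ M, Real.log m ≤ Lm → ∀ a : J →₀ ℕ, a.degree ≤ b0 →
        co (zm m) (a.mapDomain some) = co z a) →
      (∀ m ∈ M, Real.log m ≤ Lm → ∀ a : J →₀ ℕ, a.degree ≤ b0 →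
        co (zm m) (a.mapDomain some + Finsupp.single none 1)
          = ∑ B ∈ (Finset.univ : Finset ι).powerset.filter (fun B => tyi ty B = a), FM m B) →
      (∀ m ∈ M, Real.log m ≤ Lm →
        |co (wm m) (Finsupp.single none 1)| ≤ Real.exp (k2 * Real.log m)) →
      (∀ m ∈ M, Real.log m ≤ Lm → ∀ a : J →₀ ℕ, a ≠ 0 → a.degree ≤ b0 →
        |co (wm m) (a.mapDomain some + Finsupp.single none 1)| ≤ Real.exp (k2 * Real.log m
          + K * a.degree * Real.log (lf (fun j => (sc j : ℝ) * Real.log 2) a)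
          - c * lf (fun j => (sc j : ℝ) * Real.log 2) a)) →
      1 / 2 * Real.exp (-(2 * ∑ j, Bd j)) ≤ ∑ B ∈ DD, FB B + ∑ m ∈ M, ∑ B ∈ DDm m, FM m B := by
  obtain ⟨g0, hg0, δ0, hδ0, l0, H⟩ := star_sets.{u, v} hK hc hcr0 hcr hC1 hk2 hc4
  refine ⟨g0, hg0, δ0, hδ0, l0, ?_⟩
  intro J _ _ sc b0 g Bd rho ι _ _ ty FB DD z w hinj hsc0 hg hgg hB1 hBg hb0 hrho hrhok hcard hMC
    hz hFB0 hDD hF1 hP1 hP2 hD M FM DDm zm wm Lm hM2 hLm0 hLm hDDm hA hMm hz0 hz1 hDm0 hDm
  refine H sc b0 g Bd rho ty FB DD z w hinj hsc0 hg hgg hB1 hBg hb0 hrho hrhok hcard hMC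
    hz hFB0 hDD hF1 hP1 hP2 hD M FM DDm
    (fun m a => co (wm m) (a.mapDomain some + Finsupp.single none 1)) Lm hM2 hLm0 hLm hDDm hA
    ?_ ?_ hDm
  · intro m hm hml a ha
    rw [← hz1 m hm hml a ha, euler_none (hMm m hm hml) a]
    refine Finset.sum_congr rfl fun x hx => ?_
    rw [HasAntidiagonal.mem_antidiagonal] at hx
    rw [hz0 m hm hml x.2]
    have : a.degree = x.1.degree + x.2.degree := by rw [← hx, map_add]
    omega
  · intro m hm hml
    show |co (wm m) ((0 : J →₀ ℕ).mapDomain some + Finsupp.single none 1)| ≤ _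
    rw [Finsupp.mapDomain_zero, zero_add]
    exact hDm0 m hm hml

end Vale.Agent.P042.H727
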