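import Vale.Agent.P042.H284.SubK
import Vale.Agent.P042.H727.StarEnd

/-!
# P042: the local lower bound, main system + moduli (helper727, row 29 level 1)

`pmainS` = helper85's `pmain` with an extra family of moduli: the typed bounds of the marginal
laws (`BTS`, all orders `≤ b0`, all top scales), the absolute bound (F1*), the absolute bound (A*)
of the moduli and, for the small moduli, the convolution identity (E*) with the bound (D*), give
the lower bound of the total.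
-/

set_option linter.unusedSectionVars false

namespace Vale.Agent.P042.H727

open Finset
open Vale.Agent.P042.H284 (co tyi tyi_degree BTS FK zF wF glueS co_zF mc_wF FK_empty)
open Vale.Agent.P042.H384 (lf lf_nonneg degree_le_lf)

universe u v u1 u2

/-- **Local lower bound, main system and moduli.** -/
theorem pmainS {c1 c3 cr C1 A2 c4 : ℝ} (A : ℕ) (hc1 : 0 < c1) (hc3 : 0 < c3) (hcr0 : 0 < cr)
    (hcr : cr ≤ 1 / 2) (hC1 : 0 ≤ C1) (hA2 : 0 ≤ A2) (hc4 : 0 < c4) :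
    ∃ g0 : ℝ, 0 < g0 ∧ g0 ≤ c1 ∧ ∃ δ0 : ℝ, 0 < δ0 ∧ ∀ g' : ℝ, 0 < g' → g' ≤ g0 → ∃ l0 : ℕ,
      ∀ (J : Type v) [Fintype J] [DecidableEq J] (sn : J → ℕ) (ell : J → ℝ) (b0 : ℕ)
      (g c2 : ℝ) (Bd rr : J → ℝ), Function.Injective sn → (∀ j, l0 ≤ sn j) →
      (∀ j, ell j = sn j * Real.log 2) →
      0 ≤ g → 8 * g ≤ g' → g + c1 ≤ c2 → 2 ≤ b0 →
      (∀ j, Real.exp (g' * ell j) ≤ Bd j) → (∀ j, Bd j ≤ Real.exp (g0 * ell j)) →
      C1 + 900 * ∑ j, Bd j + Fintype.card J + 3 ≤ b0 →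
      (∀ j, Real.exp 3 ≤ rr j) →
      (∀ (j : J) (k : ℕ), k ≠ 0 → k ≤ b0 → (k : ℝ) ≤ Real.exp (ell j) →
        cr * Real.log k ≤ Real.log (rr j)) →
      ∀ (ι : Type u1) [Fintype ι] [DecidableEq ι] (V : ι → Type u2) [∀ i, Fintype (V i)]
        [∀ i, DecidableEq (V i)] (lam : ∀ i, V i → ℝ) (K : ∀ i, V i → V i → ℝ) (c : ι → ℝ)
        (u u' : ∀ i, V i → ℝ) (s : ∀ i, V i → V i → ℝ) (rho e : ι → ℝ)
        (mu mu' : (∀ i, V i) → ℝ) (sc : ι → J) (DD : Finset (Finset ι)),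
        (∀ i a, 0 ≤ lam i a) → H365.OB lam K c u u' s rho e → (∑ x, mu x = 1) →
        (∑ x, mu' x = 1) → (∀ x, mu x ≠ 0 → ∀ i, lam i (x i) ≠ 0) →
        (∀ x, mu' x ≠ 0 → ∀ i, lam i (x i) ≠ 0) →
        (∀ j, ((Finset.univ.filter (fun i => sc i = j)).card : ℝ) ≤ Real.exp (ell j)) →
        (∀ b, 1 ≤ b → b ≤ b0 → ∀ j : J, ∃ (p : ι → Prop) (_ : DecidablePred p) (σ : ℝ)
          (VV : J → Finset (Σ i : {i // p i}, Option (V i))) (R E : {i // p i} → ℝ)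
          (N : J → J → ℝ), BTS p lam rho e mu mu' sc ell g c1 c2 A b j σ VV R E N) →
        (∀ B : Finset ι, B.card ≤ b0 → B ∈ DD) →
        (∀ r : J → ℝ, (∀ j, 0 ≤ r j) → (∀ j, r j ≤ rr j) →
          ∑ B ∈ DD, |FK K mu mu' B| * ∏ i ∈ B, r (sc i)
            ≤ Real.exp (C1 + ∑ j, Bd j * (r j + r j ^ 2))) →
      -- the extra moduli
      ∀ (M : Finset ℕ) (FM : ℕ → Finset ι → ℝ) (DDm : ℕ → Finset (Finset ι)) (Lm : ℝ),
        (∀ m ∈ M, 2 ≤ m) → 0 ≤ Lm → (∀ j, (b0 : ℝ) * ell j ≤ Lm) →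
        (∀ m ∈ M, Real.log m ≤ Lm → ∀ B : Finset ι, B.card ≤ b0 → B ∈ DDm m) →
        (∀ Z : ℝ, 1 ≤ Z → ∀ r : J → ℝ, (∀ j, 0 ≤ r j) → (∀ j, r j ≤ rr j) →
          ∑ m ∈ M.filter (fun m : ℕ => Z < (m : ℝ)), ∑ B ∈ DDm m, |FM m B| * ∏ i ∈ B, r (sc i)
            ≤ δ0 * Real.exp (-(c4 * Real.log Z))
              * Real.exp (C1 + ∑ j, Bd j * (r j + r j ^ 2))) →
        (∀ m ∈ M, Real.log m ≤ Lm → ∃ W : (J →₀ ℕ) → ℝ,
          (∀ a : J →₀ ℕ, a.degree ≤ b0 →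
            ∑ B ∈ (Finset.univ : Finset ι).powerset.filter (fun B => tyi sc B = a), FM m B
              = ∑ x ∈ HasAntidiagonal.antidiagonal a, W x.1 *
                ∑ B ∈ (Finset.univ : Finset ι).powerset.filter (fun B => tyi sc B = x.2),
                  FK K mu mu' B) ∧
          (∀ a : J →₀ ℕ, a.degree ≤ b0 →
            |W a| ≤ Real.exp (A2 * Real.log m + A2 * a.degree * Real.log (lf ell a)
              - c3 * lf ell a))) →
      1 / 2 * Real.exp (-(2 * ∑ j, Bd j))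
        ≤ ∑ B ∈ DD, FK K mu mu' B + ∑ m ∈ M, ∑ B ∈ DDm m, FM m B := by
  set KK : ℝ := max ((2 * A : ℕ) + 4 : ℝ) A2 with hKK
  have hK : (0 : ℝ) ≤ KK := le_max_of_le_left (by positivity)
  obtain ⟨g0, hg0, δ0, hδ0, l1, H⟩ := star_sets.{v, u1} (K := KK) (c := min (c1 / 6) c3)
    (cr := cr) (C1 := C1) (k2 := A2) (c4 := c4) hK (lt_min (by positivity) hc3) hcr0 hcr hC1 hA2 hc4
  refine ⟨min g0 c1, lt_min hg0 hc1, min_le_right _ _, δ0, hδ0, fun g' hg' hgg => ?_⟩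
  obtain ⟨l2, G⟩ := glueS.{v, u1, u2} hc1 hg' (hgg.trans (min_le_right _ _)) A
  obtain ⟨l3, hl3⟩ := exists_nat_ge (1 / Real.log 2)
  refine ⟨max (max l1 l2) l3, ?_⟩
  intro J _ _ sn ell b0 g c2 Bd rr hinj hsn hell hg hg8 hgc hb0 hB1 hB2 hb3 hrr hrrk ι _ _ V _ _
    lam K c u u' s rho e mu mu' sc DD h0 hOB hmu hmu' hac hac' hcard hBT hDD hF1
    M FM DDm Lm hM2 hLm0 hLm hDDm hA hED
  obtain ⟨hP1, hP2, hD⟩ := G J sn ell b0 g c2 hinj
    (fun j => ((le_max_right _ _).trans (le_max_left _ _)).trans (hsn j))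
    hell hg hg8 hgc hb0 ι V lam K c u u' s rho e mu mu' sc h0 hOB hmu hmu' hac hac' hBT
  have hl2 : 0 < Real.log 2 := Real.log_pos (by norm_num)
  have hell1 : ∀ j, 1 ≤ ell j := by
    intro j
    rw [hell j]
    have h1 := hl3
    rw [div_le_iff₀ hl2] at h1
    refine h1.trans ?_
    apply mul_le_mul_of_nonneg_right _ hl2.le
    exact_mod_cast (le_max_right _ _).trans (hsn j)
  have hell' : ell = fun j => (sn j : ℝ) * Real.log 2 := funext hell
  have hell0 : ∀ j, 0 ≤ ell j := fun j => by linarith [hell1 j]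
  -- comparison of the constants
  have hcmp : ∀ (a : J →₀ ℕ) (K' c' G : ℝ), K' ≤ KK → min (c1 / 6) c3 ≤ c' → a ≠ 0 →
      Real.exp (G + K' * a.degree * Real.log (lf ell a) - c' * lf ell a) ≤
        Real.exp (G + KK * a.degree * Real.log (lf ell a) - min (c1 / 6) c3 * lf ell a) := by
    intro a K' c' G hK' hc' ha
    refine Real.exp_le_exp.mpr ?_
    have hd1 : (1 : ℝ) ≤ a.degree := by
      have : a.degree ≠ 0 := by rwa [Ne, Finsupp.degree_eq_zero_iff]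
      exact_mod_cast Nat.one_le_iff_ne_zero.mpr this
    have hlf1 : 1 ≤ lf ell a := hd1.trans (degree_le_lf hell1 a)
    have hlog : 0 ≤ Real.log (lf ell a) := Real.log_nonneg hlf1
    have h2 : 0 ≤ (a.degree : ℝ) * Real.log (lf ell a) := mul_nonneg (by linarith) hlog
    have h3 := mul_le_mul_of_nonneg_right hK' h2
    have h4 := mul_le_mul_of_nonneg_right hc' (by linarith : 0 ≤ lf ell a)
    nlinarith
  choose! Wf hWE hWD using hED
  subst hell'
  refine H sn b0 (min g0 c1) Bd rr sc (FK K mu mu') DD (zF sc (FK K mu mu'))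
    (wF sc (FK K mu mu')) hinj
    (fun j => ((le_max_left _ _).trans (le_max_left _ _)).trans (hsn j))
    (le_min hg0.le hc1.le) (min_le_left _ _) ?_ hB2 hb3 hrr hrrk hcard
    (mc_wF sc (FK_empty hmu hmu')) (fun a _ => co_zF sc _ a) (FK_empty hmu hmu') hDD hF1
    (fun j => (hP1 j).trans (hB1 j)) (fun j => (hP2 j).trans (hB1 j)) ?_
    M FM DDm Wf Lm hM2 hLm0 hLm hDDm hA ?_ ?_ ?_
  · intro j
    refine le_trans ?_ (hB1 j)
    exact Real.one_le_exp (mul_nonneg hg'.le (hell0 j))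
  · intro a h3 hb
    have ha0 : a ≠ 0 := by rintro rfl; simp at h3
    have h1 := hD a h3 hb
    have h2 := hcmp a ((2 * A : ℕ) + 4 : ℝ) (c1 / 6) 0 (le_max_left _ _) (min_le_left _ _) ha0
    rw [zero_add, zero_add] at h2
    exact h1.trans h2
  · intro m hm hml a ha
    rw [hWE m hm hml a ha]
    refine Finset.sum_congr rfl fun x _ => ?_
    rw [co_zF]
  · intro m hm hml
    have h1 := hWD m hm hml 0 (by simp)
    refine h1.trans (Real.exp_le_exp.mpr (le_of_eq ?_))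
    simp [lf]
  · intro m hm hml a ha0 ha
    refine (hWD m hm hml a ha).trans ?_
    exact hcmp a A2 c3 _ (le_max_right _ _) (min_le_right _ _) ha0

end Vale.Agent.P042.H727
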