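import Vale.Agent.P042.H727.Nr

/-!
# Sums of monomials
-/

open Finset

set_option linter.unusedSectionVars false

namespace Vale.Agent.P042.H727

variable {J : Type*} [Fintype J] [DecidableEq J]

theorem geom_le_exp {x : ℝ} (h0 : 0 ≤ x) (h1 : x ≤ 1 / 2) (n : ℕ) :
    ∑ i ∈ range n, x ^ i ≤ Real.exp (2 * x) := by
  have h2 : ∑ i ∈ range n, x ^ i ≤ (1 - x)⁻¹ := by
    have hs := summable_geometric_of_lt_one h0 (by linarith)
    rw [← tsum_geometric_of_lt_one h0 (by linarith)]
    exact hs.sum_le_tsum _ fun i _ => pow_nonneg h0 i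
  refine h2.trans ?_
  rw [inv_le_comm₀ (by linarith) (Real.exp_pos _), ← Real.exp_neg]
  have h3 : Real.exp (-(2 * x)) * Real.exp (2 * x) = 1 := by rw [← Real.exp_add]; simp
  have h4 : 1 + 2 * x ≤ Real.exp (2 * x) := by linarith [Real.add_one_le_exp (2 * x)]
  have h5 : 0 < Real.exp (-(2 * x)) := Real.exp_pos _
  nlinarith [mul_le_mul_of_nonneg_left h4 h5.le, mul_nonneg h0 (by linarith : 0 ≤ 1 / 2 - x)]

theorem sum_mon_le {x : J → ℝ} (hx0 : ∀ l, 0 ≤ x l) (hx : ∑ l, x l ≤ 1 / 4)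
    (s : Finset (J →₀ ℕ)) (hs : ∀ a ∈ s, a ≠ 0) : ∑ a ∈ s, mon x a ≤ 4 * ∑ l, x l := by
  set n := (s.sup fun a => a.degree) + 1 with hn
  have hxl : ∀ l, x l ≤ 1 / 2 := fun l =>
    (Finset.single_le_sum (f := x) (fun i _ => hx0 i) (Finset.mem_univ l)).trans (by linarith)
  have h1 : 1 + ∑ a ∈ s, mon x a ≤ ∏ l, ∑ i ∈ range n, x l ^ i := by
    rw [Finset.prod_univ_sum]
    have h2 : ∑ p ∈ Fintype.piFinset (fun _ : J => range n), ∏ l, x l ^ p l =
        ∑ a ∈ (Fintype.piFinset (fun _ : J => range n)).map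
          (Finsupp.equivFunOnFinite (α := J) (M := ℕ)).symm.toEmbedding, mon x a := by
      rw [Finset.sum_map]
      rfl
    rw [h2]
    have h3 : (0 : J →₀ ℕ) ∉ s := fun h => hs 0 h rfl
    have h4 : 1 + ∑ a ∈ s, mon x a = ∑ a ∈ insert 0 s, mon x a := by
      rw [Finset.sum_insert h3, mon_zero]
    rw [h4]
    refine Finset.sum_le_sum_of_subset_of_nonneg ?_ fun a _ _ => mon_nonneg hx0 a
    intro a ha
    rw [Finset.mem_map]
    refine ⟨fun l => a l, ?_, ?_⟩
    · rw [Fintype.mem_piFinset]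
      intro l
      rw [Finset.mem_range, hn]
      rcases Finset.mem_insert.1 ha with rfl | ha
      · simp
      · have h5 : a l ≤ a.degree := by
          rw [Finsupp.degree_eq_sum]
          exact Finset.single_le_sum (f := fun l => a l) (fun i _ => Nat.zero_le _)
            (Finset.mem_univ l)
        have h6 : a.degree ≤ s.sup fun a => a.degree :=
          Finset.le_sup (f := fun a : J →₀ ℕ => a.degree) ha
        omega
    · ext l
      simp [Finsupp.equivFunOnFinite]
  have h2 : ∏ l, ∑ i ∈ range n, x l ^ i ≤ Real.exp (2 * ∑ l, x l) := by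
    rw [Finset.mul_sum, Real.exp_sum]
    exact Finset.prod_le_prod (fun l _ => Finset.sum_nonneg fun i _ => pow_nonneg (hx0 l) i)
      fun l _ => geom_le_exp (hx0 l) (hxl l) n
  have h3 : 0 ≤ ∑ l, x l := Finset.sum_nonneg fun l _ => hx0 l
  have h4 : Real.exp (2 * ∑ l, x l) ≤ 1 + 4 * ∑ l, x l := by
    have h5 := Real.exp_bound_div_one_sub_of_interval (x := 2 * ∑ l, x l) (by positivity)
      (by linarith)
    refine h5.trans ?_
    rw [div_le_iff₀ (by linarith)]
    nlinarith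
  linarith

theorem mon_exp (lam : J → ℝ) (a : J →₀ ℕ) :
    mon (fun l => Real.exp (lam l)) a = Real.exp (∑ l, a l * lam l) := by
  unfold mon
  rw [Real.exp_sum]
  exact Finset.prod_congr rfl fun l _ => by rw [← Real.exp_nat_mul]

end Vale.Agent.P042.H727
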