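import Vale.Agent.P042.H727.Ps

/-!
# Weighted `ℓ¹` norms of polynomials in several variables
-/

open Finset

set_option linter.unusedSectionVars false

namespace Vale.Agent.P042.H727

variable {J : Type*} [Fintype J]

/-- The value of a monomial. -/
def mon (ρ : J → ℝ) (a : J →₀ ℕ) : ℝ := ∏ l, ρ l ^ a l

theorem mon_nonneg {ρ : J → ℝ} (hρ : ∀ l, 0 ≤ ρ l) (a : J →₀ ℕ) : 0 ≤ mon ρ a :=
  Finset.prod_nonneg fun l _ => pow_nonneg (hρ l) _

theorem mon_pos {ρ : J → ℝ} (hρ : ∀ l, 0 < ρ l) (a : J →₀ ℕ) : 0 < mon ρ a :=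
  Finset.prod_pos fun l _ => pow_pos (hρ l) _

theorem mon_zero (ρ : J → ℝ) : mon ρ 0 = 1 := by simp [mon]

theorem mon_add (ρ : J → ℝ) (a b : J →₀ ℕ) : mon ρ (a + b) = mon ρ a * mon ρ b := by
  unfold mon
  rw [← Finset.prod_mul_distrib]
  exact Finset.prod_congr rfl fun l _ => by rw [Finsupp.add_apply, pow_add]

theorem mon_mono {ρ σ : J → ℝ} (hρ : ∀ l, 0 ≤ ρ l) (h : ∀ l, ρ l ≤ σ l) (a : J →₀ ℕ) :
    mon ρ a ≤ mon σ a :=
  Finset.prod_le_prod (fun l _ => pow_nonneg (hρ l) _) fun l _ => pow_le_pow_left₀ (hρ l) (h l) _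

theorem mon_scale (ρ : J → ℝ) (R : ℝ) (a : J →₀ ℕ) :
    mon (fun l => ρ l * R) a = mon ρ a * R ^ a.degree := by
  unfold mon
  rw [Finsupp.degree_eq_sum, ← Finset.prod_pow_eq_pow_sum, ← Finset.prod_mul_distrib]
  exact Finset.prod_congr rfl fun l _ => mul_pow _ _ _

/-- The weighted `ℓ¹` norm. -/
noncomputable def nr (ρ : J → ℝ) (f : MvPolynomial J ℝ) : ℝ :=
  ∑ a ∈ f.support, |f.coeff a| * mon ρ a

theorem nr_eq {ρ : J → ℝ} {f : MvPolynomial J ℝ} {s : Finset (J →₀ ℕ)} (h : f.support ⊆ s) :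
    nr ρ f = ∑ a ∈ s, |f.coeff a| * mon ρ a := by
  unfold nr
  refine Finset.sum_subset h fun a _ ha => ?_
  rw [MvPolynomial.notMem_support_iff.1 ha, abs_zero, zero_mul]

theorem nr_monomial (ρ : J → ℝ) (a : J →₀ ℕ) (c : ℝ) :
    nr ρ (MvPolynomial.monomial a c) = |c| * mon ρ a := by
  classical
  rw [nr_eq (s := {a}) MvPolynomial.support_monomial_subset, Finset.sum_singleton,
    MvPolynomial.coeff_monomial, if_pos rfl]

theorem nr_add {ρ : J → ℝ} (hρ : ∀ l, 0 ≤ ρ l) (f g : MvPolynomial J ℝ) :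
    nr ρ (f + g) ≤ nr ρ f + nr ρ g := by
  classical
  rw [nr_eq (s := f.support ∪ g.support) MvPolynomial.support_add,
    nr_eq (f := f) (s := f.support ∪ g.support) Finset.subset_union_left,
    nr_eq (f := g) (s := f.support ∪ g.support) Finset.subset_union_right,
    ← Finset.sum_add_distrib]
  refine Finset.sum_le_sum fun a _ => ?_
  rw [MvPolynomial.coeff_add, ← add_mul]
  exact mul_le_mul_of_nonneg_right (abs_add_le _ _) (mon_nonneg hρ a)

theorem nr_zero (ρ : J → ℝ) : nr ρ 0 = 0 := by simp [nr]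

theorem nr_sum {ρ : J → ℝ} (hρ : ∀ l, 0 ≤ ρ l) {ι : Type*} (s : Finset ι)
    (f : ι → MvPolynomial J ℝ) : nr ρ (∑ i ∈ s, f i) ≤ ∑ i ∈ s, nr ρ (f i) := by
  classical
  induction s using Finset.induction_on with
  | empty => simp [nr_zero]
  | insert i s hi ih =>
    rw [Finset.sum_insert hi, Finset.sum_insert hi]
    exact (nr_add hρ _ _).trans (add_le_add_right ih _)

theorem nr_nonneg {ρ : J → ℝ} (hρ : ∀ l, 0 ≤ ρ l) (f : MvPolynomial J ℝ) : 0 ≤ nr ρ f :=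
  Finset.sum_nonneg fun a _ => mul_nonneg (abs_nonneg _) (mon_nonneg hρ a)

theorem nr_mul {ρ : J → ℝ} (hρ : ∀ l, 0 ≤ ρ l) (f g : MvPolynomial J ℝ) :
    nr ρ (f * g) ≤ nr ρ f * nr ρ g := by
  classical
  rw [MvPolynomial.mul_def]
  unfold Finsupp.sum
  refine (nr_sum hρ _ _).trans ?_
  unfold nr
  rw [Finset.sum_mul]
  refine Finset.sum_le_sum fun a _ => ?_
  refine (nr_sum hρ _ _).trans ?_
  rw [Finset.mul_sum]
  refine Finset.sum_le_sum fun b _ => ?_
  rw [nr_monomial, abs_mul, mon_add]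
  exact le_of_eq (by
    change |MvPolynomial.coeff a f| * |MvPolynomial.coeff b g| * _ = _
    ring)

theorem nr_smul (ρ : J → ℝ) (c : ℝ) (f : MvPolynomial J ℝ) : nr ρ (c • f) = |c| * nr ρ f := by
  rw [nr_eq (s := f.support) (MvPolynomial.support_smul), nr, Finset.mul_sum]
  refine Finset.sum_congr rfl fun a _ => ?_
  rw [MvPolynomial.coeff_smul, smul_eq_mul, abs_mul, mul_assoc]

theorem sn_nr {ρ : J → ℝ} (hρ : ∀ l, 0 ≤ ρ l) : SN (nr ρ) where
  nonneg := nr_nonneg hρ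
  zero := nr_zero ρ
  one := by
    have h := nr_monomial ρ 0 1
    rw [mon_zero, abs_one, one_mul] at h
    exact (show nr ρ (1 : MvPolynomial J ℝ) = 1 from h).le
  add := nr_add hρ
  mul := nr_mul hρ
  smul c f := (nr_smul ρ c f).le

/-- Comparison of norms on polynomials with restricted exponents. -/
theorem nr_le_of {ρ σ : J → ℝ} {f : MvPolynomial J ℝ} {c : ℝ}
    (h : ∀ a ∈ f.support, mon ρ a ≤ c * mon σ a) : nr ρ f ≤ c * nr σ f := by
  unfold nr
  rw [Finset.mul_sum]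
  refine Finset.sum_le_sum fun a ha => ?_
  calc |f.coeff a| * mon ρ a ≤ |f.coeff a| * (c * mon σ a) :=
        mul_le_mul_of_nonneg_left (h a ha) (abs_nonneg _)
    _ = _ := by ring

theorem nr_mono {ρ σ : J → ℝ} (hρ : ∀ l, 0 ≤ ρ l) (h : ∀ l, ρ l ≤ σ l) (f : MvPolynomial J ℝ) :
    nr ρ f ≤ nr σ f := by
  have := nr_le_of (ρ := ρ) (σ := σ) (f := f) (c := 1) fun a _ => by
    rw [one_mul]; exact mon_mono hρ h a
  rwa [one_mul] at this

/-- The norm of a homogeneous polynomial scales. -/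
theorem nr_scale {ρ : J → ℝ} {f : MvPolynomial J ℝ} {m : ℕ} (hf : f.IsHomogeneous m) (R : ℝ) :
    nr (fun l => ρ l * R) f = nr ρ f * R ^ m := by
  unfold nr
  rw [Finset.sum_mul]
  refine Finset.sum_congr rfl fun a ha => ?_
  have h1 : a.degree = m := by
    have := hf (MvPolynomial.mem_support_iff.1 ha)
    rw [Finsupp.degree_eq_weight_one]
    exact this
  rw [mon_scale, h1]
  ring

/-- Hölder's inequality. -/
theorem nr_holder {ρ1 ρ2 ρ : J → ℝ} (h1 : ∀ l, 0 < ρ1 l) (h2 : ∀ l, 0 < ρ2 l) (h : ∀ l, 0 ≤ ρ l)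
    {t : ℝ} (ht0 : 0 < t) (ht1 : t < 1) (hle : ∀ l, ρ l ≤ ρ1 l ^ t * ρ2 l ^ (1 - t))
    (f : MvPolynomial J ℝ) : nr ρ f ≤ nr ρ1 f ^ t * nr ρ2 f ^ (1 - t) := by
  have h3 : nr ρ f ≤ ∑ a ∈ f.support, (|f.coeff a| * mon ρ1 a) ^ t *
      (|f.coeff a| * mon ρ2 a) ^ (1 - t) := by
    unfold nr
    refine Finset.sum_le_sum fun a _ => ?_
    have e1 : (|f.coeff a| * mon ρ1 a) ^ t * (|f.coeff a| * mon ρ2 a) ^ (1 - t) =
        |f.coeff a| * (mon ρ1 a ^ t * mon ρ2 a ^ (1 - t)) := by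
      rw [Real.mul_rpow (abs_nonneg _) (mon_pos h1 a).le, Real.mul_rpow (abs_nonneg _)
        (mon_pos h2 a).le]
      rcases eq_or_lt_of_le (abs_nonneg (f.coeff a)) with h0 | h0
      · rw [← h0, Real.zero_rpow ht0.ne']
        ring
      · have : |f.coeff a| ^ t * |f.coeff a| ^ (1 - t) = |f.coeff a| := by
          rw [← Real.rpow_add h0]
          simp
        calc _ = (|f.coeff a| ^ t * |f.coeff a| ^ (1 - t)) *
              (mon ρ1 a ^ t * mon ρ2 a ^ (1 - t)) := by ring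
          _ = _ := by rw [this]
    rw [e1]
    refine mul_le_mul_of_nonneg_left ?_ (abs_nonneg _)
    have e2 : mon ρ1 a ^ t * mon ρ2 a ^ (1 - t) = ∏ l, (ρ1 l ^ t * ρ2 l ^ (1 - t)) ^ a l := by
      unfold mon
      rw [← Real.finsetProd_rpow _ _ (fun l _ => (pow_pos (h1 l) _).le),
        ← Real.finsetProd_rpow _ _ (fun l _ => (pow_pos (h2 l) _).le), ← Finset.prod_mul_distrib]
      refine Finset.prod_congr rfl fun l _ => ?_
      rw [mul_pow, ← Real.rpow_natCast, ← Real.rpow_natCast, ← Real.rpow_natCast,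
        ← Real.rpow_natCast, ← Real.rpow_mul (h1 l).le, ← Real.rpow_mul (h2 l).le,
        ← Real.rpow_mul (h1 l).le, ← Real.rpow_mul (h2 l).le, mul_comm (a l : ℝ) t,
        mul_comm (a l : ℝ) (1 - t)]
    rw [e2]
    exact Finset.prod_le_prod (fun l _ => pow_nonneg (h l) _)
      fun l _ => pow_le_pow_left₀ (h l) (hle l) _
  refine h3.trans ?_
  have hpq : (1 / t).HolderConjugate (1 / (1 - t)) := by
    rw [Real.holderConjugate_iff]
    constructor
    · rw [lt_div_iff₀ ht0]; linarith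
    · field_simp
      ring
  have h4 := Real.inner_le_Lp_mul_Lq_of_nonneg f.support hpq
    (f := fun a => (|f.coeff a| * mon ρ1 a) ^ t) (g := fun a => (|f.coeff a| * mon ρ2 a) ^ (1 - t))
    (fun a _ => Real.rpow_nonneg (mul_nonneg (abs_nonneg _) (mon_pos h1 a).le) _)
    (fun a _ => Real.rpow_nonneg (mul_nonneg (abs_nonneg _) (mon_pos h2 a).le) _)
  refine h4.trans_eq ?_
  unfold nr
  have e3 : ∀ a ∈ f.support, ((|f.coeff a| * mon ρ1 a) ^ t) ^ (1 / t) = |f.coeff a| * mon ρ1 a := by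
    intro a _
    rw [← Real.rpow_mul (mul_nonneg (abs_nonneg _) (mon_pos h1 a).le), mul_one_div_cancel ht0.ne',
      Real.rpow_one]
  have e4 : ∀ a ∈ f.support, ((|f.coeff a| * mon ρ2 a) ^ (1 - t)) ^ (1 / (1 - t)) =
      |f.coeff a| * mon ρ2 a := by
    intro a _
    rw [← Real.rpow_mul (mul_nonneg (abs_nonneg _) (mon_pos h2 a).le),
      mul_one_div_cancel (by linarith), Real.rpow_one]
  rw [Finset.sum_congr rfl e3, Finset.sum_congr rfl e4, one_div_one_div, one_div_one_div]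

end Vale.Agent.P042.H727
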