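import Vale.Agent.P042.H727.Sums

/-!
# The numerical parameters of the tower
-/

open Finset PowerSeries

set_option linter.unusedSectionVars false

namespace Vale.Agent.P042.H727

variable {J : Type*} [Fintype J] [DecidableEq J]

/-- The size exponent of a multidegree. -/
noncomputable def lamA (sc : J → ℕ) (a : J →₀ ℕ) : ℝ := ∑ l, (a l : ℝ) * (sc l * Real.log 2)

/-- The constants. -/
noncomputable def cK (C c : ℝ) : ℝ := 8 * C / c
/-- The constants. -/
noncomputable def cC1 (C c : ℝ) : ℝ := 3 * cK C c + 2 * C + 2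
/-- The constants. -/
noncomputable def cC2 (C c : ℝ) : ℝ := 64 * cC1 C c
/-- The constants. -/
noncomputable def ct (C c cr : ℝ) : ℝ := cr / (2 * (cC2 C c + cr))
/-- The constants. -/
noncomputable def cv (C c cr : ℝ) : ℝ := c / 4 * ct C c cr

/-- The radii of the first bound. -/
noncomputable def rad2 (sc : J → ℕ) (cr γ Λ : ℝ) (l : J) : ℝ :=
  if (sc l : ℝ) * Real.log 2 ≤ Λ then Real.exp (cr * (sc l * Real.log 2))
  else Real.exp (-(γ * (sc l * Real.log 2)))

/-- The small scales. -/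
noncomputable def small (sc : J → ℕ) (Λ : ℝ) : Finset J :=
  Finset.univ.filter fun l => (sc l : ℝ) * Real.log 2 ≤ Λ

theorem mon_exp_lin (sc : J → ℕ) (v : ℝ) (a : J →₀ ℕ) :
    mon (fun l => Real.exp (v * (sc l * Real.log 2))) a = Real.exp (v * lamA sc a) := by
  rw [mon_exp (fun l => v * (sc l * Real.log 2)) a]
  congr 1
  unfold lamA
  rw [Finset.mul_sum]
  exact Finset.sum_congr rfl fun l _ => by ring

theorem lamA_ge {sc : J → ℕ} {a : J →₀ ℕ} {b : ℝ}
    (h : ∀ l, a l ≠ 0 → b ≤ (sc l : ℝ) * Real.log 2) : (a.degree : ℝ) * b ≤ lamA sc a := by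
  unfold lamA
  rw [Finsupp.degree_eq_sum]
  push_cast
  rw [Finset.sum_mul]
  refine Finset.sum_le_sum fun l _ => ?_
  rcases Nat.eq_zero_or_pos (a l) with h0 | h0
  · rw [h0]; simp
  · exact mul_le_mul_of_nonneg_left (h l (by omega)) (Nat.cast_nonneg _)

theorem lamA_nonneg (sc : J → ℕ) (a : J →₀ ℕ) : 0 ≤ lamA sc a :=
  Finset.sum_nonneg fun l _ => by
    have := Real.log_nonneg (by norm_num : (1 : ℝ) ≤ 2)
    positivity

theorem deg_of_mem {f : MvPolynomial J ℝ} {m : ℕ} (hf : f.IsHomogeneous m) {a : J →₀ ℕ}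
    (ha : a ∈ f.support) : a.degree = m := by
  have h3 : Finsupp.weight (1 : J → ℕ) a = m := hf (MvPolynomial.mem_support_iff.1 ha)
  rw [Finsupp.degree_eq_weight_one]
  exact h3

theorem geo_all {sc : J → ℕ} (hinj : Function.Injective sc) {l0 : ℕ} (hl0 : ∀ l, l0 ≤ sc l)
    {a : ℝ} (ha0 : 0 < a) (ha1 : a ≤ 1) :
    ∑ l, Real.exp (-(a * (sc l * Real.log 2))) ≤ 4 / a * Real.exp (-(a * (l0 * Real.log 2))) :=
  geo_sum hinj ha0 ha1 _ fun l _ => hl0 l

/-- The direct bound, all legs large. -/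
theorem dir_sum {sc : J → ℕ} (hinj : Function.Injective sc) {l0 : ℕ} (hl0 : ∀ l, l0 ≤ sc l)
    {C c v : ℝ} (hC : 0 ≤ C) (hc0 : 0 < c) (hc1 : c ≤ 1) (hv : v ≤ c / 4)
    {f : ℕ → MvPolynomial J ℝ} (hh : ∀ m, (f m).IsHomogeneous m) {N : ℕ}
    (hD : ∀ m, 3 ≤ m → m ≤ N → ∀ a ∈ (f m).support,
      |(f m).coeff a| ≤ Real.exp (C * (m * Real.log m) - c * lamA sc a))
    (hL : ∀ m, ∀ a ∈ (f m).support, ∀ l, a l ≠ 0 → cK C c * Real.log N ≤ sc l * Real.log 2)
    (hl : 8 / c * Real.exp (-(c / 2 * (l0 * Real.log 2))) ≤ 1 / 4) {I : Finset ℕ}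
    (hI : I ⊆ Icc 3 N) : ∑ m ∈ I, nr (fun l => Real.exp (v * (sc l * Real.log 2))) (f m) ≤ 1 := by
  have h1 : ∑ l, Real.exp (-(c / 2 * (sc l * Real.log 2))) ≤ 1 / 4 := by
    refine (geo_all hinj hl0 (by linarith) (by linarith)).trans (le_trans (le_of_eq ?_) hl)
    congr 1
    field_simp
    norm_num
  refine (sum_nr_le hh (I := I) (x := fun l => Real.exp (-(c / 2 * (sc l * Real.log 2)))) ?_ ?_ h1
    ?_).trans (by linarith)
  · intro h0
    have := Finset.mem_Icc.1 (hI h0)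
    omega
  · exact fun l => (Real.exp_pos _).le
  · intro m hm a ha
    obtain ⟨hm3, hmN⟩ := Finset.mem_Icc.1 (hI hm)
    have hdeg := deg_of_mem (hh m) ha
    rw [mon_exp_lin]
    have e1 : mon (fun l => Real.exp (-(c / 2 * (sc l * Real.log 2)))) a =
        Real.exp (-(c / 2) * lamA sc a) := by
      rw [← mon_exp_lin]
      congr 1
      ext l
      congr 1
      ring
    rw [e1]
    refine (mul_le_mul_of_nonneg_right (hD m hm3 hmN a ha) (Real.exp_pos _).le).trans ?_
    rw [← Real.exp_add]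
    refine Real.exp_le_exp.2 ?_
    have h2 := lamA_ge (hL m a ha)
    rw [hdeg] at h2
    have h3 : Real.log m ≤ Real.log N :=
      Real.log_le_log (by exact_mod_cast (by omega : 0 < m)) (by exact_mod_cast hmN)
    have h4 : 0 ≤ lamA sc a := lamA_nonneg sc a
    have h5 : C * (m * Real.log m) ≤ C * (m * Real.log N) :=
      mul_le_mul_of_nonneg_left (mul_le_mul_of_nonneg_left h3 (Nat.cast_nonneg _)) hC
    have h6 : (m : ℝ) * (cK C c * Real.log N) = 8 / c * (C * (m * Real.log N)) := by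
      unfold cK
      ring
    rw [h6] at h2
    have h7 : C * (m * Real.log N) ≤ c / 8 * lamA sc a := by
      have h8 := mul_le_mul_of_nonneg_left h2 (by positivity : 0 ≤ c / 8)
      calc C * (m * Real.log N) = c / 8 * (8 / c * (C * (m * Real.log N))) := by
            field_simp
        _ ≤ _ := h8
    nlinarith [mul_nonneg (by linarith : 0 ≤ c / 4 - v) h4, mul_nonneg hc0.le h4]

/-- Distinctness of the small legs. -/
theorem dist_legs {sc : J → ℕ} (hinj : Function.Injective sc) {S : Finset J} {a : J →₀ ℕ}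
    (ha : ∀ l ∈ S, a l ≤ 2 ^ sc l) {s : ℕ} (hs : ∑ l ∈ S, a l = s) (hs4 : 4 ≤ s) :
    (s : ℝ) / 2 * Real.log (s / 4) ≤ ∑ l ∈ S, (a l : ℝ) * (sc l * Real.log 2) := by
  set n := Nat.log 2 s - 1 with hn
  have hlog : 2 ≤ Nat.log 2 s := by
    have : Nat.log 2 4 ≤ Nat.log 2 s := Nat.log_mono_right hs4
    have h2 : Nat.log 2 4 = 2 := by decide
    omega
  have h1 : 2 ^ (n + 1) ≤ s := by
    rw [hn, show Nat.log 2 s - 1 + 1 = Nat.log 2 s by omega]
    exact Nat.pow_log_le_self 2 (by omega)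
  have h2 : s < 2 ^ (n + 2) := by
    rw [hn, show Nat.log 2 s - 1 + 2 = Nat.log 2 s + 1 by omega]
    exact Nat.lt_pow_succ_log_self (by norm_num) s
  have h3 : ∑ l ∈ S.filter (fun l => sc l < n), a l < 2 ^ n := by
    calc ∑ l ∈ S.filter (fun l => sc l < n), a l ≤ ∑ l ∈ S.filter (fun l => sc l < n), 2 ^ sc l :=
          Finset.sum_le_sum fun l hl => ha l (Finset.mem_of_mem_filter l hl)
      _ = ∑ i ∈ (S.filter (fun l => sc l < n)).image sc, 2 ^ i := by
          rw [Finset.sum_image fun x _ y _ h => hinj h]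
      _ < 2 ^ n := by
          refine Nat.geomSum_lt le_rfl fun i hi => ?_
          obtain ⟨l, hl, rfl⟩ := Finset.mem_image.1 hi
          exact (Finset.mem_filter.1 hl).2
  have h4 := Finset.sum_filter_add_sum_filter_not S (fun l => sc l < n) fun l => a l
  have h5 : (s : ℝ) / 2 ≤ ((∑ l ∈ S.filter (fun l => ¬ sc l < n), a l : ℕ) : ℝ) := by
    have h6 : s ≤ 2 * ∑ l ∈ S.filter (fun l => ¬ sc l < n), a l := by
      have : 2 * 2 ^ n ≤ s := by rw [← pow_succ']; exact h1
      omega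
    have h7 : (s : ℝ) ≤ 2 * ((∑ l ∈ S.filter (fun l => ¬ sc l < n), a l : ℕ) : ℝ) := by
      exact_mod_cast h6
    linarith
  have hl2 : 0 < Real.log 2 := Real.log_pos (by norm_num)
  have h8 : Real.log (s / 4) ≤ n * Real.log 2 := by
    rw [← Real.log_pow]
    refine Real.log_le_log (by positivity) ?_
    rw [div_le_iff₀ (by norm_num)]
    have : (s : ℝ) ≤ 2 ^ (n + 2) := by exact_mod_cast h2.le
    calc (s : ℝ) ≤ 2 ^ (n + 2) := this
      _ = 2 ^ n * 4 := by ring
  calc (s : ℝ) / 2 * Real.log (s / 4) ≤ (s : ℝ) / 2 * (n * Real.log 2) :=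
        mul_le_mul_of_nonneg_left h8 (by positivity)
    _ ≤ ((∑ l ∈ S.filter (fun l => ¬ sc l < n), a l : ℕ) : ℝ) * (n * Real.log 2) :=
        mul_le_mul_of_nonneg_right h5 (by positivity)
    _ = ∑ l ∈ S.filter (fun l => ¬ sc l < n), (a l : ℝ) * (n * Real.log 2) := by
        push_cast
        rw [Finset.sum_mul]
    _ ≤ ∑ l ∈ S.filter (fun l => ¬ sc l < n), (a l : ℝ) * (sc l * Real.log 2) := by
        refine Finset.sum_le_sum fun l hl => ?_
        have h9 : n ≤ sc l := not_lt.1 (Finset.mem_filter.1 hl).2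
        have h10 : (n : ℝ) ≤ sc l := by exact_mod_cast h9
        exact mul_le_mul_of_nonneg_left (mul_le_mul_of_nonneg_right h10 hl2.le)
          (Nat.cast_nonneg _)
    _ ≤ _ := Finset.sum_le_sum_of_subset_of_nonneg (Finset.filter_subset _ _)
        fun l _ _ => by positivity

end Vale.Agent.P042.H727
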