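import Vale.Agent.P042.H727.Num

/-!
# The bounds of one step of the tower
-/

open Finset PowerSeries

set_option linter.unusedSectionVars false

namespace Vale.Agent.P042.H727

variable {J : Type*} [Fintype J] [DecidableEq J]

/-- The radii of the direct bound. -/
noncomputable def rad1 (sc : J → ℕ) (c z Λ : ℝ) (l : J) : ℝ :=
  if (sc l : ℝ) * Real.log 2 ≤ Λ then Real.exp (-z)
  else Real.exp (c / 2 * (sc l * Real.log 2))

/-- The radii of the direct bound after the use of distinctness. -/
noncomputable def rad1' (sc : J → ℕ) (c z Λ : ℝ) (l : J) : ℝ :=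
  if (sc l : ℝ) * Real.log 2 ≤ Λ then Real.exp (-(z * (sc l * Real.log 2)))
  else Real.exp (c / 2 * (sc l * Real.log 2))

theorem lamA_eq (sc : J → ℕ) (a : J →₀ ℕ) :
    lamA sc a = ∑ l, (a l : ℝ) * (sc l * Real.log 2) := rfl

/-- The use of distinctness. -/
theorem dist_mon {sc : J → ℕ} (hinj : Function.Injective sc) {c C1 X Λ : ℝ} (hC1 : 0 ≤ C1)
    (hX : 24 ≤ X) {a : J →₀ ℕ} (ha : ∀ l ∈ small sc Λ, a l ≤ 2 ^ sc l) :
    mon (rad1' sc c (64 * C1) Λ) a ≤
      Real.exp (C1 * X * Real.exp (X / 8)) * mon (rad1 sc c (C1 * X) Λ) a := by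
  have e1 : rad1' sc c (64 * C1) Λ = fun l => Real.exp (if (sc l : ℝ) * Real.log 2 ≤ Λ then
      -(64 * C1 * (sc l * Real.log 2)) else c / 2 * (sc l * Real.log 2)) := by
    ext l
    unfold rad1'
    split_ifs <;> rfl
  have e2 : rad1 sc c (C1 * X) Λ = fun l => Real.exp (if (sc l : ℝ) * Real.log 2 ≤ Λ then
      -(C1 * X) else c / 2 * (sc l * Real.log 2)) := by
    ext l
    unfold rad1
    split_ifs <;> rfl
  rw [e1, e2, mon_exp, mon_exp, ← Real.exp_add]
  refine Real.exp_le_exp.2 ?_
  set s := ∑ l ∈ small sc Λ, a l with hs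
  have h1 : ∑ l, (a l : ℝ) * (if (sc l : ℝ) * Real.log 2 ≤ Λ then
      -(64 * C1 * (sc l * Real.log 2)) else c / 2 * (sc l * Real.log 2)) -
      ∑ l, (a l : ℝ) * (if (sc l : ℝ) * Real.log 2 ≤ Λ then
      -(C1 * X) else c / 2 * (sc l * Real.log 2)) =
      C1 * X * s - 64 * C1 * ∑ l ∈ small sc Λ, (a l : ℝ) * (sc l * Real.log 2) := by
    rw [← Finset.sum_sub_distrib, hs]
    push_cast
    rw [Finset.mul_sum, Finset.mul_sum, ← Finset.sum_sub_distrib, small, Finset.sum_filter]
    refine Finset.sum_congr rfl fun l _ => ?_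
    split_ifs <;> ring
  have h0 : 0 ≤ ∑ l ∈ small sc Λ, (a l : ℝ) * (sc l * Real.log 2) :=
    Finset.sum_nonneg fun l _ => by
      have := Real.log_nonneg (by norm_num : (1 : ℝ) ≤ 2)
      positivity
  have key : C1 * X * s - 64 * C1 * ∑ l ∈ small sc Λ, (a l : ℝ) * (sc l * Real.log 2) ≤
      C1 * X * Real.exp (X / 8) := by
    have hX0 : 0 ≤ X := by linarith
    rcases le_or_gt (s : ℝ) (Real.exp (X / 8)) with h2 | h2
    · have h3 : C1 * X * s ≤ C1 * X * Real.exp (X / 8) :=
        mul_le_mul_of_nonneg_left h2 (by positivity)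
      have h4 : 0 ≤ 64 * C1 * ∑ l ∈ small sc Λ, (a l : ℝ) * (sc l * Real.log 2) := by positivity
      linarith
    · have h3 : (4 : ℝ) ≤ s := by
        have h5 : X / 8 + 1 ≤ Real.exp (X / 8) := Real.add_one_le_exp _
        linarith
      have h4 := dist_legs hinj ha hs.symm (by exact_mod_cast h3)
      have h5 : X / 16 ≤ Real.log (s / 4) := by
        rw [Real.log_div (by positivity) (by norm_num)]
        have h6 : X / 8 ≤ Real.log s := by
          rw [Real.le_log_iff_exp_le (by positivity)]
          exact h2.le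
        have h7 : Real.log 4 < 1.4 := by
          rw [show (4 : ℝ) = 2 ^ 2 by norm_num, Real.log_pow]
          have := Real.log_two_lt_d9
          push_cast
          linarith
        linarith
      have h6 : (s : ℝ) / 2 * (X / 16) ≤ (s : ℝ) / 2 * Real.log (s / 4) :=
        mul_le_mul_of_nonneg_left h5 (by positivity)
      have h7 : 64 * C1 * ((s : ℝ) / 2 * (X / 16)) ≤
          64 * C1 * ∑ l ∈ small sc Λ, (a l : ℝ) * (sc l * Real.log 2) :=
        mul_le_mul_of_nonneg_left (h6.trans h4) (by positivity)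
      have h8 : 64 * C1 * ((s : ℝ) / 2 * (X / 16)) = 2 * (C1 * X * s) := by ring
      have h9 : 0 ≤ C1 * X * s := by positivity
      have h10 : 0 ≤ C1 * X * Real.exp (X / 8) := by positivity
      linarith
  linarith

theorem coeff_sub_res (S : Finset J) (f : MvPolynomial J ℝ) (a : J →₀ ℕ) :
    (f - res S f).coeff a = if ∀ l ∈ S, a l = 0 then 0 else f.coeff a := by
  rw [MvPolynomial.coeff_sub, coeff_res]
  split_ifs <;> simp

theorem small_down {sc : J → ℕ} {Λ : ℝ} {l l' : J} (h : sc l ≤ sc l') (h' : l' ∈ small sc Λ) :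
    l ∈ small sc Λ := by
  unfold small at *
  rw [Finset.mem_filter] at *
  refine ⟨Finset.mem_univ _, le_trans ?_ h'.2⟩
  have h1 : (sc l : ℝ) ≤ sc l' := by exact_mod_cast h
  exact mul_le_mul_of_nonneg_right h1 (Real.log_nonneg (by norm_num))

theorem small_card {sc : J → ℕ} (hinj : Function.Injective sc) {Λ : ℝ} (hΛ : 0 ≤ Λ) :
    ((small sc Λ).card : ℝ) ≤ 2 * Λ + 1 :=
  card_scales hinj hΛ _ fun _ hl => (Finset.mem_filter.1 hl).2

/-- Order one, touching the small scales. -/
theorem low_one {sc : J → ℕ} (hinj : Function.Injective sc) {Λ γ2 u z : ℝ} (hΛ : 0 ≤ Λ)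
    (hγ2 : 0 ≤ γ2) (hu : 0 ≤ u) {f : MvPolynomial J ℝ} (hf : f.IsHomogeneous 1)
    (hD : ∀ l, |f.coeff (Finsupp.single l 1)| ≤ Real.exp (γ2 * (sc l * Real.log 2)))
    {ρ : J → ℝ} (hρ0 : ∀ l, 0 ≤ ρ l)
    (hρ : ∀ l ∈ small sc Λ, ρ l ≤ Real.exp (u * (sc l * Real.log 2) + z)) :
    nr ρ (f - res (small sc Λ) f) ≤ (2 * Λ + 1) * Real.exp ((γ2 + u) * Λ + z) := by
  have hfh : (f - res (small sc Λ) f).IsHomogeneous 1 := by
    intro a ha
    rw [coeff_sub_res] at ha
    split_ifs at ha with h
    · exact absurd rfl ha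
    · exact hf ha
  refine (nr_deg_one hfh hρ0).trans ?_
  have h1 : ∀ l, |(f - res (small sc Λ) f).coeff (Finsupp.single l 1)| * ρ l ≤
      if l ∈ small sc Λ then Real.exp ((γ2 + u) * Λ + z) else 0 := by
    intro l
    rw [coeff_sub_res]
    rcases em (l ∈ small sc Λ) with hl | hl
    · rw [if_pos hl, if_neg (by
        intro h
        have := h l hl
        simp at this)]
      have h2 : (sc l : ℝ) * Real.log 2 ≤ Λ := (Finset.mem_filter.1 hl).2
      calc _ ≤ Real.exp (γ2 * (sc l * Real.log 2)) * Real.exp (u * (sc l * Real.log 2) + z) :=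
            mul_le_mul (hD l) (hρ l hl) (hρ0 l) (Real.exp_pos _).le
        _ = Real.exp ((γ2 + u) * (sc l * Real.log 2) + z) := by
            rw [← Real.exp_add]
            congr 1
            ring
        _ ≤ _ := by
            refine Real.exp_le_exp.2 ?_
            have := mul_le_mul_of_nonneg_left h2 (add_nonneg hγ2 hu)
            linarith
    · rw [if_neg hl, if_pos (by
        intro i hi
        rw [Finsupp.single_apply, if_neg]
        rintro rfl
        exact hl hi)]
      simp
  refine (Finset.sum_le_sum fun l _ => h1 l).trans ?_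
  rw [← Finset.sum_filter, Finset.sum_const, nsmul_eq_mul]
  refine mul_le_mul_of_nonneg_right ?_ (Real.exp_pos _).le
  have h2 : Finset.univ.filter (fun l => l ∈ small sc Λ) = small sc Λ := by
    ext l
    simp
  rw [h2]
  exact small_card hinj hΛ

/-- Order two, touching the small scales. -/
theorem low_two {sc : J → ℕ} (hinj : Function.Injective sc) {Λ γ2 u u' z c : ℝ} (hΛ : 0 ≤ Λ)
    (hγ2 : 0 ≤ γ2) (hu : 0 ≤ u) (hu' : 0 ≤ u') (hc0 : 0 < c) (hc1 : c ≤ 1) (hu'c : u' ≤ c / 2)
    {f : MvPolynomial J ℝ} (hf : f.IsHomogeneous 2)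
    (hD : ∀ l l', sc l ≤ sc l' → |f.coeff (Finsupp.single l 1 + Finsupp.single l' 1)| ≤
      Real.exp (γ2 * (sc l * Real.log 2) - c * (sc l' * Real.log 2 - sc l * Real.log 2)))
    {ρ : J → ℝ} (hρ0 : ∀ l, 0 ≤ ρ l)
    (hρ : ∀ l ∈ small sc Λ, ρ l ≤ Real.exp (u * (sc l * Real.log 2) + z))
    (hρ' : ∀ l, ρ l ≤ Real.exp (u' * (sc l * Real.log 2))) :
    nr ρ (f - res (small sc Λ) f) ≤
      (2 * Λ + 1) * (8 / c * Real.exp ((γ2 + u + u') * Λ + z)) := by
  have hfh : (f - res (small sc Λ) f).IsHomogeneous 2 := by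
    intro a ha
    rw [coeff_sub_res] at ha
    split_ifs at ha with h
    · exact absurd rfl ha
    · exact hf ha
  refine (nr_deg_two hfh hρ0 sc).trans ?_
  have h1 : ∀ l, ∑ l' ∈ Finset.univ.filter (fun l' => sc l ≤ sc l'),
      |(f - res (small sc Λ) f).coeff (Finsupp.single l 1 + Finsupp.single l' 1)| *
        (ρ l * ρ l') ≤
      if l ∈ small sc Λ then 8 / c * Real.exp ((γ2 + u + u') * Λ + z) else 0 := by
    intro l
    rcases em (l ∈ small sc Λ) with hl | hl
    · rw [if_pos hl]
      have h2 : (sc l : ℝ) * Real.log 2 ≤ Λ := (Finset.mem_filter.1 hl).2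
      have h3 : ∀ l' ∈ Finset.univ.filter (fun l' => sc l ≤ sc l'),
          |(f - res (small sc Λ) f).coeff (Finsupp.single l 1 + Finsupp.single l' 1)| *
            (ρ l * ρ l') ≤ (Real.exp ((γ2 + u + u') * Λ + z) *
              Real.exp ((c - u') * (sc l * Real.log 2))) *
              Real.exp (-((c - u') * (sc l' * Real.log 2))) := by
        intro l' hl'
        have hle := (Finset.mem_filter.1 hl').2
        have h4 : |(f - res (small sc Λ) f).coeff (Finsupp.single l 1 + Finsupp.single l' 1)| ≤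
            Real.exp (γ2 * (sc l * Real.log 2) - c * (sc l' * Real.log 2 - sc l * Real.log 2)) := by
          rw [coeff_sub_res]
          split_ifs
          · rw [abs_zero]; exact (Real.exp_pos _).le
          · exact hD l l' hle
        calc _ ≤ Real.exp (γ2 * (sc l * Real.log 2) -
              c * (sc l' * Real.log 2 - sc l * Real.log 2)) *
              (Real.exp (u * (sc l * Real.log 2) + z) * Real.exp (u' * (sc l' * Real.log 2))) :=
              mul_le_mul h4 (mul_le_mul (hρ l hl) (hρ' l') (hρ0 _) (Real.exp_pos _).le)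
                (mul_nonneg (hρ0 _) (hρ0 _)) (Real.exp_pos _).le
          _ = Real.exp ((γ2 + u + u') * (sc l * Real.log 2) + z +
              (c - u') * (sc l * Real.log 2) - (c - u') * (sc l' * Real.log 2)) := by
              rw [← Real.exp_add, ← Real.exp_add]
              congr 1
              ring
          _ ≤ Real.exp ((γ2 + u + u') * Λ + z + (c - u') * (sc l * Real.log 2) -
              (c - u') * (sc l' * Real.log 2)) := by
              refine Real.exp_le_exp.2 ?_
              have := mul_le_mul_of_nonneg_left h2 (add_nonneg (add_nonneg hγ2 hu) hu')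
              linarith
          _ = _ := by
              rw [← Real.exp_add, ← Real.exp_add]
              congr 1
      refine (Finset.sum_le_sum h3).trans ?_
      rw [← Finset.mul_sum]
      have h5 := geo_sum hinj (a := c - u') (by linarith) (by linarith)
        (Finset.univ.filter (fun l' => sc l ≤ sc l')) (b := sc l)
        (fun l' hl' => (Finset.mem_filter.1 hl').2)
      refine (mul_le_mul_of_nonneg_left h5 (by positivity)).trans ?_
      have h6 : Real.exp ((γ2 + u + u') * Λ + z) * Real.exp ((c - u') * (sc l * Real.log 2)) *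
          (4 / (c - u') * Real.exp (-((c - u') * (sc l * Real.log 2)))) =
          4 / (c - u') * Real.exp ((γ2 + u + u') * Λ + z) := by
        have : Real.exp ((c - u') * (sc l * Real.log 2)) *
            Real.exp (-((c - u') * (sc l * Real.log 2))) = 1 := by
          rw [← Real.exp_add]; simp
        calc _ = 4 / (c - u') * Real.exp ((γ2 + u + u') * Λ + z) *
            (Real.exp ((c - u') * (sc l * Real.log 2)) *
            Real.exp (-((c - u') * (sc l * Real.log 2)))) := by ring
          _ = _ := by rw [this, mul_one]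
      rw [h6]
      refine mul_le_mul_of_nonneg_right ?_ (Real.exp_pos _).le
      rw [div_le_div_iff₀ (by linarith) hc0]
      linarith
    · rw [if_neg hl]
      refine le_of_eq (Finset.sum_eq_zero fun l' hl' => ?_)
      have hle := (Finset.mem_filter.1 hl').2
      rw [coeff_sub_res, if_pos, abs_zero, zero_mul]
      intro i hi
      have hne1 : ¬ l = i := by
        rintro rfl
        exact hl hi
      have hne2 : ¬ l' = i := by
        rintro rfl
        exact hl (small_down hle hi)
      rw [Finsupp.add_apply, Finsupp.single_apply, Finsupp.single_apply, if_neg hne1, if_neg hne2, add_zero]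
  refine (Finset.sum_le_sum fun l _ => h1 l).trans ?_
  rw [← Finset.sum_filter, Finset.sum_const, nsmul_eq_mul]
  refine mul_le_mul_of_nonneg_right ?_ (by positivity)
  have h2 : Finset.univ.filter (fun l => l ∈ small sc Λ) = small sc Λ := by
    ext l
    simp
  rw [h2]
  exact small_card hinj hΛ

end Vale.Agent.P042.H727
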