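import Mathlib

/-!
# Power series over a commutative algebra with a submultiplicative norm
-/

open Finset PowerSeries

set_option linter.unusedSectionVars false

namespace Vale.Agent.P042.H727

/-- A submultiplicative norm function. -/
structure SN {A : Type*} [CommRing A] [Algebra ℝ A] (N : A → ℝ) : Prop where
  nonneg : ∀ a, 0 ≤ N a
  zero : N 0 = 0
  one : N 1 ≤ 1
  add : ∀ a b, N (a + b) ≤ N a + N b
  mul : ∀ a b, N (a * b) ≤ N a * N b
  smul : ∀ (c : ℝ) a, N (c • a) ≤ |c| * N a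

variable {A : Type*} [CommRing A] [Algebra ℝ A] {N : A → ℝ}

theorem SN.sum (hN : SN N) {ι : Type*} (s : Finset ι) (f : ι → A) :
    N (∑ i ∈ s, f i) ≤ ∑ i ∈ s, N (f i) := by
  classical
  induction s using Finset.induction_on with
  | empty => simp [hN.zero]
  | insert i s hi ih =>
    rw [Finset.sum_insert hi, Finset.sum_insert hi]
    exact (hN.add _ _).trans (add_le_add_right ih _)

theorem SN.neg (hN : SN N) (a : A) : N (-a) ≤ N a := by
  have h := hN.smul (-1) a
  simpa using h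

/-- The weighted sum of the norms of the coefficients up to order `M`. -/
noncomputable def Sm (N : A → ℝ) (M : ℕ) (R : ℝ) (f : A⟦X⟧) : ℝ :=
  ∑ m ∈ range (M + 1), N (coeff m f) * R ^ m

theorem Sm_nonneg (hN : SN N) (M : ℕ) {R : ℝ} (hR : 0 ≤ R) (f : A⟦X⟧) : 0 ≤ Sm N M R f :=
  Finset.sum_nonneg fun m _ => mul_nonneg (hN.nonneg _) (pow_nonneg hR m)

theorem le_Sm (hN : SN N) {M m : ℕ} (hm : m ≤ M) {R : ℝ} (hR : 0 ≤ R) (f : A⟦X⟧) :
    N (coeff m f) * R ^ m ≤ Sm N M R f :=
  Finset.single_le_sum (f := fun m => N (coeff m f) * R ^ m)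
    (fun i _ => mul_nonneg (hN.nonneg _) (pow_nonneg hR i)) (by simp; omega)

theorem sum_anti_le (M : ℕ) (F : ℕ → ℕ → ℝ) (hF : ∀ i j, 0 ≤ F i j) :
    ∑ m ∈ range (M + 1), ∑ p ∈ antidiagonal m, F p.1 p.2 ≤
      ∑ i ∈ range (M + 1), ∑ j ∈ range (M + 1), F i j := by
  have h1 : ∀ m ∈ range (M + 1), ∑ p ∈ antidiagonal m, F p.1 p.2 =
      ∑ i ∈ range (M + 1), if i ≤ m then F i (m - i) else 0 := by
    intro m hm
    rw [Finset.Nat.sum_antidiagonal_eq_sum_range_succ_mk, ← Finset.sum_filter]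
    refine Finset.sum_congr ?_ fun _ _ => rfl
    ext i
    simp only [Finset.mem_range, Finset.mem_filter] at hm ⊢
    omega
  rw [Finset.sum_congr rfl h1, Finset.sum_comm]
  refine Finset.sum_le_sum fun i hi => ?_
  have h2 : ∑ m ∈ range (M + 1), (if i ≤ m then F i (m - i) else 0) =
      ∑ j ∈ range (M + 1 - i), F i j := by
    rw [← Finset.sum_filter]
    refine Finset.sum_bij' (fun m _ => m - i) (fun j _ => j + i) ?_ ?_ ?_ ?_ ?_
    · intro m hm
      simp only [Finset.mem_range, Finset.mem_filter] at hm ⊢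
      omega
    · intro j hj
      simp only [Finset.mem_range, Finset.mem_filter] at hj ⊢
      omega
    · intro m hm
      simp only [Finset.mem_range, Finset.mem_filter] at hm ⊢
      omega
    · intro j hj
      omega
    · intro m hm
      rfl
  rw [h2]
  refine Finset.sum_le_sum_of_subset_of_nonneg ?_ fun _ _ _ => hF _ _
  intro j hj
  rw [Finset.mem_range] at hj ⊢
  omega

theorem Sm_mul (hN : SN N) (M : ℕ) {R : ℝ} (hR : 0 ≤ R) (f g : A⟦X⟧) :
    Sm N M R (f * g) ≤ Sm N M R f * Sm N M R g := by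
  unfold Sm
  rw [Finset.sum_mul_sum]
  refine le_trans (Finset.sum_le_sum fun m _ => ?_)
    (sum_anti_le M (fun i j => (N (coeff i f) * R ^ i) * (N (coeff j g) * R ^ j))
      fun i j => mul_nonneg (mul_nonneg (hN.nonneg _) (pow_nonneg hR _))
        (mul_nonneg (hN.nonneg _) (pow_nonneg hR _)))
  rw [coeff_mul]
  refine (mul_le_mul_of_nonneg_right (hN.sum _ _) (pow_nonneg hR m)).trans ?_
  rw [Finset.sum_mul]
  refine Finset.sum_le_sum fun p hp => ?_
  rw [← mem_antidiagonal.1 hp, pow_add]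
  calc N (coeff p.1 f * coeff p.2 g) * (R ^ p.1 * R ^ p.2) ≤
      (N (coeff p.1 f) * N (coeff p.2 g)) * (R ^ p.1 * R ^ p.2) :=
        mul_le_mul_of_nonneg_right (hN.mul _ _) (by positivity)
    _ = _ := by ring

/-- The Newton relation `r' = w' r`. -/
def New (w r : A⟦X⟧) : Prop := derivative A r = derivative A w * r

theorem New.mul {w r w' r' : A⟦X⟧} (h : New w r) (h' : New w' r') : New (w + w') (r * r') := by
  unfold New at *
  rw [Derivation.leibniz, h, h', map_add, smul_eq_mul, smul_eq_mul]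
  ring

theorem New.recur {w r : A⟦X⟧} (h : New w r) (m : ℕ) :
    ((m : ℝ) + 1) • coeff (m + 1) r = ∑ p ∈ antidiagonal m,
      (((p.1 : ℝ) + 1) • coeff (p.1 + 1) w) * coeff p.2 r := by
  have h1 := congrArg (coeff m) h
  rw [coeff_mul] at h1
  have e : ∀ (n : ℕ) (f : A⟦X⟧), coeff n (derivative A f) = ((n : ℝ) + 1) • coeff (n + 1) f := by
    intro n f
    rw [coeff_derivative, Algebra.smul_def, mul_comm]
    simp
  rw [e] at h1
  rw [h1]
  exact Finset.sum_congr rfl fun p _ => by rw [e]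

theorem New.smul_coeff {w r : A⟦X⟧} (h : New w r) (m : ℕ) :
    coeff (m + 1) r = ((m : ℝ) + 1)⁻¹ • ∑ p ∈ antidiagonal m,
      (((p.1 : ℝ) + 1) • coeff (p.1 + 1) w) * coeff p.2 r := by
  rw [← h.recur m, smul_smul, inv_mul_cancel₀ (by positivity), one_smul]

/-- The coefficients of the exponential. -/
noncomputable def exc (v : A⟦X⟧) : ℕ → A
  | 0 => 1
  | n + 1 => ((n : ℝ) + 1)⁻¹ • ∑ i : Fin (n + 1), (((i : ℕ) : ℝ) + 1) •
      coeff ((i : ℕ) + 1) v * exc v (n - i)

/-- The exponential series. -/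
noncomputable def ex (v : A⟦X⟧) : A⟦X⟧ := PowerSeries.mk (exc v)

theorem ex_zero (v : A⟦X⟧) : coeff 0 (ex v) = 1 := by
  rw [ex, coeff_mk, exc]

theorem New_ex (v : A⟦X⟧) : New v (ex v) := by
  unfold New
  ext n
  have e : ∀ (n : ℕ) (f : A⟦X⟧), coeff n (derivative A f) = ((n : ℝ) + 1) • coeff (n + 1) f := by
    intro n f
    rw [coeff_derivative, Algebra.smul_def, mul_comm]
    simp
  rw [e, coeff_mul, ex, coeff_mk, exc, smul_smul, mul_inv_cancel₀ (by positivity), one_smul,
    Finset.Nat.sum_antidiagonal_eq_sum_range_succ_mk, Finset.sum_range]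
  refine Finset.sum_congr rfl fun i _ => ?_
  rw [e, coeff_mk]

/-- Uniqueness in the Newton relation. -/
theorem New.unique {w r r' : A⟦X⟧} (h : New w r) (h' : New w r') (h0 : coeff 0 r = coeff 0 r') :
    r = r' := by
  ext n
  induction n using Nat.strong_induction_on with
  | _ n ih =>
    rcases n with _ | m
    · exact h0
    · rw [h.smul_coeff, h'.smul_coeff]
      congr 1
      refine Finset.sum_congr rfl fun p hp => ?_
      rw [ih p.2 (by have := mem_antidiagonal.1 hp; omega)]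

theorem ex_mul_neg (v : A⟦X⟧) : ex v * ex (-v) = 1 := by
  refine New.unique (w := 0) ?_ ?_ ?_
  · have h := (New_ex v).mul (New_ex (-v))
    rwa [add_neg_cancel] at h
  · unfold New
    simp
  · rw [coeff_mul]
    simp [ex_zero]

end Vale.Agent.P042.H727
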