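import Vale.Agent.P042.H727.Ps

/-!
# Bounds for exponentials and logarithms of power series
-/

open Finset PowerSeries

set_option linter.unusedSectionVars false

namespace Vale.Agent.P042.H727

/-- The exponential majorant. -/
theorem exp_major (a b : ℕ → ℝ) (ha : ∀ m, 0 ≤ a m) (hb : ∀ j, 0 ≤ b j) (h0 : a 0 ≤ 1)
    (h : ∀ m : ℕ, ((m : ℝ) + 1) * a (m + 1) ≤ ∑ p ∈ antidiagonal m, (((p.1 : ℝ) + 1) * b p.1) * a p.2)
    (M : ℕ) : ∑ m ∈ range (M + 1), a m ≤ Real.exp (∑ j ∈ range M, b j) := by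
  set φ : ℝ → ℝ := fun x => ∑ m ∈ range (M + 1), a m * x ^ m with hφ
  set γ : ℝ → ℝ := fun x => ∑ j ∈ range M, b j * x ^ (j + 1) with hγ
  have dφ : ∀ x, HasDerivAt φ (∑ m ∈ range M, ((m : ℝ) + 1) * a (m + 1) * x ^ m) x := by
    intro x
    have h1 : HasDerivAt φ (∑ m ∈ range (M + 1), a m * ((m : ℝ) * x ^ (m - 1))) x := by
      refine HasDerivAt.fun_sum fun m _ => ?_
      exact (hasDerivAt_pow m x).const_mul _
    convert h1 using 1
    rw [Finset.sum_range_succ']
    simp only [Nat.cast_zero, zero_mul, mul_zero, add_zero, Nat.add_sub_cancel, Nat.cast_add,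
      Nat.cast_one]
    exact Finset.sum_congr rfl fun m _ => by ring
  have dγ : ∀ x, HasDerivAt γ (∑ j ∈ range M, (((j : ℝ) + 1) * b j) * x ^ j) x := by
    intro x
    have h1 : HasDerivAt γ (∑ j ∈ range M, b j * (((j + 1 : ℕ) : ℝ) * x ^ (j + 1 - 1))) x := by
      refine HasDerivAt.fun_sum fun j _ => ?_
      exact (hasDerivAt_pow (j + 1) x).const_mul _
    convert h1 using 1
    refine Finset.sum_congr rfl fun m _ => ?_
    rw [Nat.add_sub_cancel]
    push_cast
    ring
  have key : ∀ x, 0 ≤ x → ∑ m ∈ range M, ((m : ℝ) + 1) * a (m + 1) * x ^ m ≤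
      (∑ j ∈ range M, (((j : ℝ) + 1) * b j) * x ^ j) * φ x := by
    intro x hx
    rcases M with _ | K
    · simp
    · have h1 : ∀ m ∈ range (K + 1), ((m : ℝ) + 1) * a (m + 1) * x ^ m ≤
          ∑ p ∈ antidiagonal m, ((((p.1 : ℝ) + 1) * b p.1) * x ^ p.1) * (a p.2 * x ^ p.2) := by
        intro m _
        refine (mul_le_mul_of_nonneg_right (h m) (pow_nonneg hx m)).trans_eq ?_
        rw [Finset.sum_mul]
        refine Finset.sum_congr rfl fun p hp => ?_
        rw [← mem_antidiagonal.1 hp, pow_add]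
        ring
      refine (Finset.sum_le_sum h1).trans ((sum_anti_le K (fun i j =>
        ((((i : ℝ) + 1) * b i) * x ^ i) * (a j * x ^ j)) fun i j => ?_).trans ?_)
      · have := ha j
        have := hb i
        positivity
      · rw [← Finset.sum_mul_sum]
        refine mul_le_mul_of_nonneg_left ?_ (Finset.sum_nonneg fun j _ => ?_)
        · rw [hφ]
          refine Finset.sum_le_sum_of_subset_of_nonneg ?_ fun j _ _ => ?_
          · intro j hj
            rw [Finset.mem_range] at hj ⊢
            omega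
          · exact mul_nonneg (ha j) (pow_nonneg hx j)
        · have := hb j
          positivity
  have anti : AntitoneOn (fun x => φ x * Real.exp (-γ x)) (Set.Icc 0 1) := by
    have hd : ∀ x, HasDerivAt (fun x => φ x * Real.exp (-γ x))
        ((∑ m ∈ range M, ((m : ℝ) + 1) * a (m + 1) * x ^ m) * Real.exp (-γ x) +
          φ x * (Real.exp (-γ x) * -(∑ j ∈ range M, (((j : ℝ) + 1) * b j) * x ^ j))) x := by
      intro x
      exact (dφ x).mul ((dγ x).neg.exp)
    refine antitoneOn_of_deriv_nonpos (convex_Icc 0 1)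
      (fun x _ => (hd x).continuousAt.continuousWithinAt)
      (fun x _ => (hd x).differentiableAt.differentiableWithinAt) fun x hx => ?_
    rw [(hd x).deriv]
    rw [interior_Icc] at hx
    have h1 := key x hx.1.le
    have h2 : 0 < Real.exp (-γ x) := Real.exp_pos _
    nlinarith [mul_le_mul_of_nonneg_right h1 h2.le]
  have h1 := anti (Set.left_mem_Icc.2 zero_le_one) (Set.right_mem_Icc.2 zero_le_one) zero_le_one
  have e1 : φ 1 = ∑ m ∈ range (M + 1), a m := by simp [hφ]
  have e2 : γ 1 = ∑ j ∈ range M, b j := by simp [hγ]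
  have e3 : φ 0 = a 0 := by
    simp only [hφ]
    rw [Finset.sum_range_succ']
    simp
  have e4 : γ 0 = 0 := by simp [hγ]
  simp only [e1, e2, e3, e4, neg_zero, Real.exp_zero, mul_one] at h1
  have h2 := h1.trans h0
  rw [Real.exp_neg] at h2
  have h3 : 0 < Real.exp (∑ j ∈ range M, b j) := Real.exp_pos _
  calc ∑ m ∈ range (M + 1), a m = (∑ m ∈ range (M + 1), a m) *
        (Real.exp (∑ j ∈ range M, b j))⁻¹ * Real.exp (∑ j ∈ range M, b j) := by field_simp
    _ ≤ 1 * Real.exp (∑ j ∈ range M, b j) := mul_le_mul_of_nonneg_right h2 h3.le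
    _ = _ := one_mul _

variable {A : Type*} [CommRing A] [Algebra ℝ A] {N : A → ℝ}

theorem New.norm_le (hN : SN N) {w r : A⟦X⟧} (h : New w r) (m : ℕ) :
    ((m : ℝ) + 1) * N (coeff (m + 1) r) ≤ ∑ p ∈ antidiagonal m,
      (((p.1 : ℝ) + 1) * N (coeff (p.1 + 1) w)) * N (coeff p.2 r) := by
  have h1 : N (coeff (m + 1) r) ≤ ((m : ℝ) + 1)⁻¹ * ∑ p ∈ antidiagonal m,
      (((p.1 : ℝ) + 1) * N (coeff (p.1 + 1) w)) * N (coeff p.2 r) := by
    rw [h.smul_coeff]
    refine (hN.smul _ _).trans ?_
    rw [abs_of_nonneg (by positivity)]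
    refine mul_le_mul_of_nonneg_left ((hN.sum _ _).trans (Finset.sum_le_sum fun p _ => ?_))
      (by positivity)
    refine (hN.mul _ _).trans (mul_le_mul_of_nonneg_right ?_ (hN.nonneg _))
    exact (hN.smul _ _).trans_eq (by rw [abs_of_nonneg (by positivity)])
  calc _ ≤ ((m : ℝ) + 1) * (((m : ℝ) + 1)⁻¹ * ∑ p ∈ antidiagonal m,
      (((p.1 : ℝ) + 1) * N (coeff (p.1 + 1) w)) * N (coeff p.2 r)) :=
        mul_le_mul_of_nonneg_left h1 (by positivity)
    _ = _ := by rw [← mul_assoc, mul_inv_cancel₀ (by positivity), one_mul]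

/-- The sum of the norms of the coefficients of positive order up to `M`. -/
noncomputable def Sp (N : A → ℝ) (M : ℕ) (R : ℝ) (f : A⟦X⟧) : ℝ :=
  ∑ m ∈ range M, N (coeff (m + 1) f) * R ^ (m + 1)

theorem Sm_eq_Sp (M : ℕ) (R : ℝ) (f : A⟦X⟧) : Sm N M R f = Sp N M R f + N (coeff 0 f) := by
  unfold Sm Sp
  rw [Finset.sum_range_succ']
  simp

theorem Sp_nonneg (hN : SN N) (M : ℕ) {R : ℝ} (hR : 0 ≤ R) (f : A⟦X⟧) : 0 ≤ Sp N M R f :=
  Finset.sum_nonneg fun m _ => mul_nonneg (hN.nonneg _) (pow_nonneg hR _)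

/-- The norm of an exponential. -/
theorem Sm_exp_le (hN : SN N) {w r : A⟦X⟧} (h : New w r) (h0 : N (coeff 0 r) ≤ 1) {R : ℝ}
    (hR : 0 ≤ R) (M : ℕ) : Sm N M R r ≤ Real.exp (Sp N M R w) := by
  refine exp_major (fun m => N (coeff m r) * R ^ m) (fun j => N (coeff (j + 1) w) * R ^ (j + 1))
    (fun m => mul_nonneg (hN.nonneg _) (pow_nonneg hR _))
    (fun m => mul_nonneg (hN.nonneg _) (pow_nonneg hR _)) (by simpa using h0) (fun m => ?_) M
  have h1 := mul_le_mul_of_nonneg_right (h.norm_le hN m) (pow_nonneg hR (m + 1))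
  rw [← mul_assoc]
  refine h1.trans_eq ?_
  rw [Finset.sum_mul]
  refine Finset.sum_congr rfl fun p hp => ?_
  rw [← mem_antidiagonal.1 hp]
  ring

/-- The norm of a quotient. -/
theorem Sm_quot_le (hN : SN N) {F G r : A⟦X⟧} (h : F = G * r) (h0 : coeff 0 G = 1) {R : ℝ}
    (hR : 0 ≤ R) {M : ℕ} (hG : Sp N M R G ≤ 1 / 2) : Sm N M R r ≤ 2 * Sm N M R F := by
  have h1 : r = F + -((G - 1) * r) := by rw [h]; ring
  have hadd : ∀ f g : A⟦X⟧, Sm N M R (f + g) ≤ Sm N M R f + Sm N M R g := by
    intro f g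
    unfold Sm
    rw [← Finset.sum_add_distrib]
    refine Finset.sum_le_sum fun m _ => ?_
    rw [map_add, ← add_mul]
    exact mul_le_mul_of_nonneg_right (hN.add _ _) (pow_nonneg hR _)
  have hneg : ∀ f : A⟦X⟧, Sm N M R (-f) ≤ Sm N M R f := by
    intro f
    unfold Sm
    refine Finset.sum_le_sum fun m _ => ?_
    rw [map_neg]
    exact mul_le_mul_of_nonneg_right (hN.neg _) (pow_nonneg hR _)
  have h2 : Sm N M R (G - 1) ≤ 1 / 2 := by
    rw [Sm_eq_Sp]
    have e1 : coeff 0 (G - 1) = 0 := by rw [map_sub, h0]; simp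
    rw [e1, hN.zero, add_zero]
    refine le_trans (le_of_eq ?_) hG
    unfold Sp
    refine Finset.sum_congr rfl fun m _ => ?_
    rw [map_sub, coeff_one, if_neg (Nat.succ_ne_zero m), sub_zero]
  have h3 : Sm N M R r ≤ Sm N M R F + 1 / 2 * Sm N M R r := by
    conv_lhs => rw [h1]
    refine (hadd _ _).trans (add_le_add_right ?_ _)
    refine (hneg _).trans ((Sm_mul hN M hR _ _).trans ?_)
    exact mul_le_mul_of_nonneg_right h2 (Sm_nonneg hN M hR _)
  linarith

/-- The part of a power series of order `≤ n`. -/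
noncomputable def low (n : ℕ) (f : A⟦X⟧) : A⟦X⟧ := PowerSeries.mk fun m => if m ≤ n then coeff m f else 0

theorem coeff_low (n m : ℕ) (f : A⟦X⟧) : coeff m (low n f) = if m ≤ n then coeff m f else 0 := by
  rw [low, coeff_mk]

/-- **The bound of the logarithm.** -/
theorem log_bound (hN : SN N) {w r : A⟦X⟧} (h : New w r) (h0 : coeff 0 r = 1) {n M : ℕ}
    {R B a : ℝ} (hR : 1 ≤ R) (hr : Sm N M R r ≤ B)
    (hw : Sp N n R w ≤ a) (hb : 2 * (M * (B * Real.exp a)) ≤ R ^ (n + 1)) {m : ℕ}
    (hm : n < m) (hmM : m ≤ M) : N (coeff m w) ≤ 2 * (B * Real.exp a / R ^ (n + 1)) := by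
  have hR0 : 0 ≤ R := by linarith
  have hRp : 0 < R ^ (n + 1) := by positivity
  set v := low n w with hv
  set u := r * ex (-v) with hu
  have hNu : New (w - v) u := by
    have := h.mul (New_ex (-v))
    rwa [← sub_eq_add_neg] at this
  have hB : 0 ≤ B := (Sm_nonneg hN M hR0 r).trans hr
  set D := B * Real.exp a with hD
  have hDn : 0 ≤ D := by positivity
  -- the norms of `u`
  have hu1 : Sm N M R u ≤ D := by
    refine (Sm_mul hN M hR0 _ _).trans ?_
    refine mul_le_mul hr ?_ (Sm_nonneg hN M hR0 _) hB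
    refine (Sm_exp_le hN (New_ex (-v)) (by rw [ex_zero]; exact hN.one) hR0 M).trans ?_
    refine Real.exp_le_exp.2 (le_trans ?_ hw)
    unfold Sp
    rw [← Finset.sum_subset (s₁ := range n) (s₂ := range M)
      (f := fun m => N (coeff (m + 1) (-v)) * R ^ (m + 1))]
    · refine Finset.sum_le_sum fun _ hm => ?_
      rw [map_neg, hv, coeff_low, if_pos (by rw [Finset.mem_range] at hm; omega)]
      exact mul_le_mul_of_nonneg_right (hN.neg _) (pow_nonneg hR0 _)
    · intro i hi
      rw [Finset.mem_range] at hi ⊢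
      omega
    · intro i hi hi'
      rw [map_neg, hv, coeff_low, if_neg (by rw [Finset.mem_range] at hi'; omega), neg_zero,
        hN.zero, zero_mul]
  have hu0 : coeff 0 u = 1 := by
    rw [hu, coeff_mul]
    simp [ex_zero, h0]
  have hwv : ∀ j, 1 ≤ j → j ≤ n → coeff j (w - v) = 0 := by
    intro j _ hj
    rw [map_sub, hv, coeff_low, if_pos hj, sub_self]
  have hwv' : ∀ j, n < j → coeff j (w - v) = coeff j w := by
    intro j hj
    rw [map_sub, hv, coeff_low, if_neg (by omega), sub_zero]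
  -- the low coefficients of `u` vanish
  have huz : ∀ j, 1 ≤ j → j ≤ n → coeff j u = 0 := by
    intro j
    induction j using Nat.strong_induction_on with
    | _ j ih =>
      intro h1 h2
      obtain ⟨i, rfl⟩ : ∃ i, j = i + 1 := ⟨j - 1, by omega⟩
      rw [hNu.smul_coeff]
      rw [Finset.sum_eq_zero, smul_zero]
      intro p hp
      have hp' := mem_antidiagonal.1 hp
      rw [hwv (p.1 + 1) (by omega) (by omega), smul_zero, zero_mul]
  set ε := D / R ^ (n + 1) with hε
  have hε0 : 0 ≤ ε := div_nonneg hDn hRp.le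
  have hMε : 2 * (M * ε) ≤ 1 := by
    rw [hε]
    have : 2 * (M * (D / R ^ (n + 1))) = 2 * (M * D) / R ^ (n + 1) := by ring
    rw [this, div_le_one hRp]
    exact hb
  have huε : ∀ j, n < j → j ≤ M → N (coeff j u) ≤ ε := by
    intro j hj hjM
    have h1 := (le_Sm hN hjM hR0 u).trans hu1
    rw [hε, le_div_iff₀ hRp]
    refine le_trans (mul_le_mul_of_nonneg_left ?_ (hN.nonneg _)) h1
    exact pow_le_pow_right₀ hR (by omega)
  have main : ∀ j, n < j → j ≤ M → N (coeff j w) ≤ 2 * ε := by
    intro j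
    induction j using Nat.strong_induction_on with
    | _ j ih =>
      intro h1 h2
      obtain ⟨i, rfl⟩ : ∃ i, j = i + 1 := ⟨j - 1, by omega⟩
      -- isolate the top term
      have h3 := hNu.recur i
      have h4 : (i, 0) ∈ antidiagonal i := by simp
      rw [← Finset.add_sum_erase _ _ h4] at h3
      simp only [hu0, mul_one] at h3
      have h5 : coeff (i + 1) w = coeff (i + 1) u + -(((i : ℝ) + 1)⁻¹ •
          ∑ p ∈ (antidiagonal i).erase (i, 0), (((p.1 : ℝ) + 1) • coeff (p.1 + 1) (w - v)) *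
            coeff p.2 u) := by
        rw [← hwv' (i + 1) h1]
        have h6 : ((i : ℝ) + 1)⁻¹ • (((i : ℝ) + 1) • coeff (i + 1) u) = coeff (i + 1) u := by
          rw [smul_smul, inv_mul_cancel₀ (by positivity), one_smul]
        rw [← h6, h3, smul_add, smul_smul, inv_mul_cancel₀ (by positivity), one_smul]
        abel
      rw [h5]
      refine (hN.add _ _).trans ?_
      have h7 : N (-(((i : ℝ) + 1)⁻¹ • ∑ p ∈ (antidiagonal i).erase (i, 0),
          (((p.1 : ℝ) + 1) • coeff (p.1 + 1) (w - v)) * coeff p.2 u)) ≤ ε := by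
        refine (hN.neg _).trans ((hN.smul _ _).trans ?_)
        rw [abs_of_nonneg (by positivity)]
        have h8 : N (∑ p ∈ (antidiagonal i).erase (i, 0),
            (((p.1 : ℝ) + 1) • coeff (p.1 + 1) (w - v)) * coeff p.2 u) ≤
            ∑ p ∈ (antidiagonal i).erase (i, 0), ((i : ℝ) + 1) * (2 * ε * ε) := by
          refine (hN.sum _ _).trans (Finset.sum_le_sum fun p hp => ?_)
          have hp1 := mem_antidiagonal.1 (Finset.mem_of_mem_erase hp)
          have hp2 : p ≠ (i, 0) := Finset.ne_of_mem_erase hp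
          have hp3 : 1 ≤ p.2 := by
            rcases Nat.eq_zero_or_pos p.2 with h9 | h9
            · exact absurd (Prod.ext (by simp only; omega) h9) hp2
            · exact h9
          rcases Nat.lt_or_ge n (p.1 + 1) with h9 | h9
          · rcases Nat.lt_or_ge n p.2 with h10 | h10
            · refine (hN.mul _ _).trans ?_
              have a1 : N ((((p.1 : ℝ) + 1) • coeff (p.1 + 1) (w - v))) ≤
                  ((i : ℝ) + 1) * (2 * ε) := by
                refine (hN.smul _ _).trans ?_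
                rw [abs_of_nonneg (by positivity), hwv' _ h9]
                have : (p.1 : ℝ) ≤ i := by exact_mod_cast (by omega : p.1 ≤ i)
                exact mul_le_mul (by linarith) (ih _ (by omega) h9 (by omega)) (hN.nonneg _)
                  (by positivity)
              calc _ ≤ (((i : ℝ) + 1) * (2 * ε)) * ε :=
                    mul_le_mul a1 (huε _ h10 (by omega)) (hN.nonneg _) (by positivity)
                _ = _ := by ring
            · rw [huz _ hp3 h10, mul_zero, hN.zero]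
              positivity
          · rw [hwv _ (by omega) h9, smul_zero, zero_mul, hN.zero]
            positivity
        refine (mul_le_mul_of_nonneg_left h8 (by positivity)).trans ?_
        rw [Finset.sum_const, Finset.card_erase_of_mem h4, Finset.Nat.card_antidiagonal,
          Nat.add_sub_cancel, nsmul_eq_mul]
        have e1 : ((i : ℝ) + 1)⁻¹ * ((i : ℝ) * (((i : ℝ) + 1) * (2 * ε * ε))) =
            (2 * (i * ε)) * ε := by
          field_simp
        rw [e1]
        refine mul_le_of_le_one_left hε0 (le_trans ?_ hMε)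
        have : (i : ℝ) ≤ M := by exact_mod_cast (by omega : i ≤ M)
        nlinarith
      linarith [huε (i + 1) h1 h2]
  exact main m hm hmM

end Vale.Agent.P042.H727
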