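import Vale.Agent.P042.H727.Ps2
import Vale.Agent.P042.H727.Nr

/-!
# The relative step: quotient by the part of the large scales
-/

open Finset PowerSeries

set_option linter.unusedSectionVars false

namespace Vale.Agent.P042.H727

variable {J : Type*} [Fintype J] [DecidableEq J]

/-- Put the variables of `S` equal to zero. -/
noncomputable def res (S : Finset J) : MvPolynomial J ℝ →ₐ[ℝ] MvPolynomial J ℝ :=
  MvPolynomial.aeval fun l => if l ∈ S then 0 else MvPolynomial.X l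

theorem res_monomial (S : Finset J) (a : J →₀ ℕ) (c : ℝ) :
    res S (MvPolynomial.monomial a c) =
      if ∀ l ∈ S, a l = 0 then MvPolynomial.monomial a c else 0 := by
  unfold res
  rw [MvPolynomial.aeval_monomial]
  split_ifs with h
  · rw [MvPolynomial.monomial_eq, MvPolynomial.algebraMap_eq]
    congr 1
    refine Finsupp.prod_congr fun l hl => ?_
    rw [if_neg]
    intro hS
    exact Finsupp.mem_support_iff.1 hl (h l hS)
  · push Not at h
    obtain ⟨l, hl, hl0⟩ := h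
    have : a.prod (fun i k => (if i ∈ S then (0 : MvPolynomial J ℝ) else MvPolynomial.X i) ^ k) =
        0 := by
      refine Finset.prod_eq_zero (Finsupp.mem_support_iff.2 hl0) ?_
      simp only
      rw [if_pos hl, zero_pow hl0]
    rw [this, mul_zero]

theorem coeff_res (S : Finset J) (f : MvPolynomial J ℝ) (a : J →₀ ℕ) :
    (res S f).coeff a = if ∀ l ∈ S, a l = 0 then f.coeff a else 0 := by
  induction f using MvPolynomial.induction_on' with
  | monomial b c =>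
    rw [res_monomial]
    rcases eq_or_ne b a with rfl | hab
    · split_ifs <;> simp
    · split_ifs <;> simp [MvPolynomial.coeff_monomial, hab]
  | add p q hp hq =>
    rw [map_add, MvPolynomial.coeff_add, hp, hq, MvPolynomial.coeff_add]
    split_ifs <;> simp

theorem nr_res_le {ρ : J → ℝ} (hρ : ∀ l, 0 ≤ ρ l) (S : Finset J) (f : MvPolynomial J ℝ) :
    nr ρ (res S f) ≤ nr ρ f := by
  have hs : (res S f).support ⊆ f.support := by
    intro a ha
    rw [MvPolynomial.mem_support_iff, coeff_res] at ha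
    rw [MvPolynomial.mem_support_iff]
    intro h
    rw [h] at ha
    simp at ha
  rw [nr_eq hs, nr]
  refine Finset.sum_le_sum fun a _ => mul_le_mul_of_nonneg_right ?_ (mon_nonneg hρ a)
  rw [coeff_res]
  split_ifs
  · exact le_rfl
  · simp

theorem nr_sub_res_le {ρ : J → ℝ} (hρ : ∀ l, 0 ≤ ρ l) (S : Finset J) (f : MvPolynomial J ℝ) :
    nr ρ (f - res S f) ≤ nr ρ f := by
  have hs : (f - res S f).support ⊆ f.support := by
    intro a ha
    rw [MvPolynomial.mem_support_iff, MvPolynomial.coeff_sub, coeff_res] at ha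
    rw [MvPolynomial.mem_support_iff]
    intro h
    rw [h] at ha
    simp at ha
  rw [nr_eq hs, nr]
  refine Finset.sum_le_sum fun a _ => mul_le_mul_of_nonneg_right ?_ (mon_nonneg hρ a)
  rw [MvPolynomial.coeff_sub, coeff_res]
  split_ifs
  · simp
  · simp

/-- Restriction of power series. -/
noncomputable def resP (S : Finset J) : (MvPolynomial J ℝ)⟦X⟧ →+* (MvPolynomial J ℝ)⟦X⟧ :=
  PowerSeries.map (res S : MvPolynomial J ℝ →+* MvPolynomial J ℝ)

theorem coeff_resP (S : Finset J) (f : (MvPolynomial J ℝ)⟦X⟧) (m : ℕ) :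
    coeff m (resP S f) = res S (coeff m f) := by
  rw [resP, PowerSeries.coeff_map]
  rfl

theorem New.resP {w r : (MvPolynomial J ℝ)⟦X⟧} (h : New w r) (S : Finset J) :
    New (resP S w) (resP S r) := by
  have e : ∀ f : (MvPolynomial J ℝ)⟦X⟧, derivative _ (H727.resP S f) =
      H727.resP S (derivative _ f) := by
    intro f
    ext1 n
    rw [coeff_derivative, coeff_resP, coeff_resP, coeff_derivative, map_mul]
    congr 1
    simp
  unfold New
  rw [e, e, h, map_mul]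

/-- The coefficient of order `m` is homogeneous of degree `m`. -/
def Hm (f : (MvPolynomial J ℝ)⟦X⟧) : Prop := ∀ m, (coeff m f).IsHomogeneous m

theorem Hm.mul {f g : (MvPolynomial J ℝ)⟦X⟧} (hf : Hm f) (hg : Hm g) : Hm (f * g) := by
  intro m
  rw [coeff_mul]
  refine MvPolynomial.IsHomogeneous.sum _ _ _ fun p hp => ?_
  rw [← mem_antidiagonal.1 hp]
  exact (hf p.1).mul (hg p.2)

theorem Hm.neg {f : (MvPolynomial J ℝ)⟦X⟧} (hf : Hm f) : Hm (-f) := by
  intro m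
  rw [map_neg]
  exact (hf m).neg

theorem isHomogeneous_smul {f : MvPolynomial J ℝ} {m : ℕ} (hf : f.IsHomogeneous m) (c : ℝ) :
    (c • f).IsHomogeneous m := by
  rw [MvPolynomial.smul_eq_C_mul]
  have := (MvPolynomial.isHomogeneous_C J c).mul hf
  rwa [zero_add] at this

theorem Hm.exp {w r : (MvPolynomial J ℝ)⟦X⟧} (hw : Hm w) (h : New w r)
    (h0 : (coeff 0 r).IsHomogeneous 0) : Hm r := by
  intro m
  induction m using Nat.strong_induction_on with
  | _ m ih =>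
    rcases m with _ | m
    · exact h0
    · rw [h.smul_coeff]
      refine isHomogeneous_smul (MvPolynomial.IsHomogeneous.sum _ _ _ fun p hp => ?_) _
      have hp' := mem_antidiagonal.1 hp
      rw [show m + 1 = p.1 + 1 + p.2 by omega]
      exact (isHomogeneous_smul (hw _) _).mul (ih _ (by omega))

theorem Hm.resP {f : (MvPolynomial J ℝ)⟦X⟧} (hf : Hm f) (S : Finset J) : Hm (resP S f) := by
  intro m
  rw [coeff_resP]
  intro a ha
  rw [coeff_res] at ha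
  refine hf m (d := a) ?_
  split_ifs at ha with h
  · exact ha
  · exact absurd rfl ha

/-- The quotient by the part of the large scales. -/
noncomputable def quo (S : Finset J) (w F : (MvPolynomial J ℝ)⟦X⟧) : (MvPolynomial J ℝ)⟦X⟧ :=
  F * resP S (ex (-w))

theorem quo_New {w F : (MvPolynomial J ℝ)⟦X⟧} (h : New w F) (S : Finset J) :
    New (w - resP S w) (quo S w F) := by
  have h1 := h.mul ((New_ex (-w)).resP S)
  rwa [map_neg, ← sub_eq_add_neg] at h1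

theorem quo_zero {w F : (MvPolynomial J ℝ)⟦X⟧} (h0 : coeff 0 F = 1) (S : Finset J) :
    coeff 0 (quo S w F) = 1 := by
  unfold quo
  rw [coeff_mul]
  simp [coeff_resP, ex_zero, h0]

theorem quo_mul {w F : (MvPolynomial J ℝ)⟦X⟧} (h : New w F) (h0 : coeff 0 F = 1) (S : Finset J) :
    F = resP S F * quo S w F := by
  have h1 : F * ex (-w) = 1 := by
    refine New.unique (w := 0) ?_ ?_ ?_
    · have := h.mul (New_ex (-w))
      rwa [add_neg_cancel] at this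
    · unfold New
      simp
    · rw [coeff_mul]
      simp [ex_zero, h0]
  have h2 := congrArg (resP S) h1
  rw [map_mul, map_one] at h2
  unfold quo
  calc F = F * 1 := (mul_one _).symm
    _ = F * (resP S F * resP S (ex (-w))) := by rw [h2]
    _ = _ := by ring

theorem quo_Hm {w F : (MvPolynomial J ℝ)⟦X⟧} (hw : Hm w) (hF : Hm F) (S : Finset J) :
    Hm (quo S w F) := by
  refine hF.mul (Hm.resP ?_ S)
  refine hw.neg.exp (New_ex (-w)) ?_
  rw [ex_zero]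
  exact MvPolynomial.isHomogeneous_one _ _

theorem quo_deg {w F : (MvPolynomial J ℝ)⟦X⟧} (S : Finset J) {k : J → ℕ}
    (hk : ∀ m, ∀ a ∈ (coeff m F).support, ∀ l ∈ S, a l ≤ k l) (m : ℕ) :
    ∀ a ∈ (coeff m (quo S w F)).support, ∀ l ∈ S, a l ≤ k l := by
  intro a ha l hl
  unfold quo at ha
  rw [coeff_mul] at ha
  obtain ⟨p, _, hp⟩ := Finset.mem_biUnion.1 (MvPolynomial.support_sum ha)
  obtain ⟨b, hb, c, hc, rfl⟩ := Finset.mem_add.1 (MvPolynomial.support_mul _ _ hp)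
  rw [coeff_resP, MvPolynomial.mem_support_iff, coeff_res] at hc
  have hc' : ∀ l ∈ S, c l = 0 := by
    by_contra h
    rw [if_neg h] at hc
    exact hc rfl
  rw [Finsupp.add_apply, hc' l hl, add_zero]
  exact hk _ b hb l hl

theorem Sm_one_le {N : MvPolynomial J ℝ → ℝ} (hN : SN N) {M m : ℕ} (hm : m ≤ M)
    (f : (MvPolynomial J ℝ)⟦X⟧) : N (coeff m f) ≤ Sm N M 1 f := by
  have := le_Sm hN hm zero_le_one f
  rwa [one_pow, mul_one] at this

/-- **The relative step.** -/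
theorem stage {w F : (MvPolynomial J ℝ)⟦X⟧} (hNew : New w F) (hF0 : coeff 0 F = 1)
    (hwh : Hm w) (hFh : Hm F) {S : Finset J} {k : J → ℕ}
    (hk : ∀ m, ∀ a ∈ (coeff m F).support, ∀ l ∈ S, a l ≤ k l) {n M : ℕ}
    {ρ ρ1 ρ1' ρ2 : J → ℝ} (hρ : ∀ l, 0 ≤ ρ l) (hρ1 : ∀ l, 0 < ρ1 l) (hρ1' : ∀ l, 0 < ρ1' l)
    (hρ2 : ∀ l, 0 < ρ2 l) {R t c b1 B2 a0 B : ℝ} (hR : 1 ≤ R) (ht0 : 0 < t) (ht1 : t < 1)
    (hc0 : 0 ≤ c)
    (h2 : Sm (nr ρ2) M 1 F ≤ B2) (h2' : Sp (nr ρ2) M 1 (resP S F) ≤ 1 / 2)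
    (h1 : Sp (nr ρ1) M 1 (w - resP S w) ≤ b1)
    (hc : ∀ a : J →₀ ℕ, a.degree ≤ M → (∀ l ∈ S, a l ≤ k l) → mon ρ1' a ≤ c * mon ρ1 a)
    (hH : ∀ l, ρ l * R ≤ ρ1' l ^ t * ρ2 l ^ (1 - t))
    (hw : Sp (nr fun l => ρ l * R) n 1 (w - resP S w) ≤ a0)
    (hB : ((M : ℝ) + 1) * ((c * Real.exp b1) ^ t * (2 * B2) ^ (1 - t)) ≤ B)
    (hb : 2 * (M * (B * Real.exp a0)) ≤ R ^ (n + 1)) {m : ℕ} (hm : n < m) (hmM : m ≤ M) :
    nr ρ (coeff m (w - resP S w)) ≤ 2 * (B * Real.exp a0 / R ^ (n + 1)) := by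
  have hR0 : 0 ≤ R := by linarith
  set r := quo S w F with hr
  have hrN : New (w - resP S w) r := quo_New hNew S
  have hr0 : coeff 0 r = 1 := quo_zero hF0 S
  have hrh : Hm r := quo_Hm hwh hFh S
  have hwh' : Hm (w - resP S w) := by
    intro i
    rw [map_sub]
    exact (hwh i).sub (hwh.resP S i)
  have hsn2 := sn_nr (fun l => (hρ2 l).le)
  have hsn1 := sn_nr (fun l => (hρ1 l).le)
  -- (1a)
  have e1 : Sm (nr ρ2) M 1 r ≤ 2 * B2 := by
    refine (Sm_quot_le hsn2 (quo_mul hNew hF0 S) ?_ zero_le_one h2').trans ?_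
    · rw [coeff_resP, hF0, map_one]
    · linarith
  -- (1b)
  have e2 : Sm (nr ρ1) M 1 r ≤ Real.exp b1 := by
    refine (Sm_exp_le hsn1 hrN ?_ zero_le_one M).trans (Real.exp_le_exp.2 h1)
    rw [hr0]
    exact hsn1.one
  -- the bound of every coefficient
  have e3 : ∀ i ≤ M, nr ρ (coeff i r) * R ^ i ≤
      (c * Real.exp b1) ^ t * (2 * B2) ^ (1 - t) := by
    intro i hi
    rw [← nr_scale (hrh i) R]
    refine (nr_holder hρ1' hρ2 (fun l => mul_nonneg (hρ l) hR0) ht0 ht1 hH _).trans ?_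
    have e4 : nr ρ1' (coeff i r) ≤ c * Real.exp b1 := by
      have e5 : nr ρ1' (coeff i r) ≤ c * nr ρ1 (coeff i r) := by
        refine nr_le_of fun a ha => hc a ?_ (quo_deg S hk i a ha)
        have h3 : Finsupp.weight (1 : J → ℕ) a = i := hrh i (MvPolynomial.mem_support_iff.1 ha)
        rw [Finsupp.degree_eq_weight_one]
        exact le_of_eq_of_le h3 hi
      exact e5.trans (mul_le_mul_of_nonneg_left ((Sm_one_le hsn1 hi r).trans e2) hc0)
    have e6 : nr ρ2 (coeff i r) ≤ 2 * B2 := (Sm_one_le hsn2 hi r).trans e1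
    exact mul_le_mul (Real.rpow_le_rpow (nr_nonneg (fun l => (hρ1' l).le) _) e4 ht0.le)
      (Real.rpow_le_rpow (nr_nonneg (fun l => (hρ2 l).le) _) e6 (by linarith))
      (Real.rpow_nonneg (nr_nonneg (fun l => (hρ2 l).le) _) _)
      (Real.rpow_nonneg (mul_nonneg hc0 (Real.exp_pos _).le) _)
  have e7 : Sm (nr ρ) M R r ≤ B := by
    refine le_trans ?_ hB
    unfold Sm
    refine (Finset.sum_le_sum fun i hi => e3 i (by rw [Finset.mem_range] at hi; omega)).trans ?_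
    rw [Finset.sum_const, Finset.card_range, nsmul_eq_mul]
    push_cast
    exact le_rfl
  have e8 : Sp (nr ρ) n R (w - resP S w) ≤ a0 := by
    refine le_trans (le_of_eq ?_) hw
    unfold Sp
    refine Finset.sum_congr rfl fun i _ => ?_
    rw [nr_scale (hwh' _) R]
    simp
  exact log_bound (sn_nr hρ) hrN hr0 hR e7 e8 hb hm hmM

/-- The data of one step of the tower: orders `n < m ≤ M`, old radii `σ`, new radii `ρ`. -/
structure Step (w F : (MvPolynomial J ℝ)⟦X⟧) (n M : ℕ) (σ ρ : J → ℝ) (τ : ℝ) : Prop where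
  ex : ∃ (S : Finset J) (k : J → ℕ) (ρ1 ρ1' ρ2 : J → ℝ) (R t c b1 B2 a12 B : ℝ),
    (∀ m, ∀ a ∈ (coeff m F).support, ∀ l ∈ S, a l ≤ k l) ∧
    (∀ l, 0 < ρ1 l) ∧ (∀ l, 0 < ρ1' l) ∧ (∀ l, 0 < ρ2 l) ∧ 1 ≤ R ∧ 0 < t ∧ t < 1 ∧ 0 ≤ c ∧
    Sm (nr ρ2) M 1 F ≤ B2 ∧ Sp (nr ρ2) M 1 (resP S F) ≤ 1 / 2 ∧
    Sp (nr ρ1) M 1 (w - resP S w) ≤ b1 ∧
    (∀ a : J →₀ ℕ, a.degree ≤ M → (∀ l ∈ S, a l ≤ k l) → mon ρ1' a ≤ c * mon ρ1 a) ∧
    (∀ l, ρ l * R ≤ ρ1' l ^ t * ρ2 l ^ (1 - t)) ∧ (∀ l, ρ l * R ≤ σ l) ∧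
    nr (fun l => ρ l * R) (coeff 1 (w - resP S w)) +
      nr (fun l => ρ l * R) (coeff 2 (w - resP S w)) ≤ a12 ∧
    ((M : ℝ) + 1) * ((c * Real.exp b1) ^ t * (2 * B2) ^ (1 - t)) ≤ B ∧
    2 * (M * (B * Real.exp (a12 + τ))) ≤ R ^ (n + 1) ∧
    ∑ m ∈ Ioc n M, nr ρ (res S (coeff m w)) ≤ 1

theorem Step.next {w F : (MvPolynomial J ℝ)⟦X⟧} (hNew : New w F) (hF0 : coeff 0 F = 1)
    (hwh : Hm w) (hFh : Hm F) {n M : ℕ} (hn : 2 ≤ n) {σ ρ : J → ℝ} (hρ : ∀ l, 0 ≤ ρ l)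
    {τ : ℝ} (hs : Step w F n M σ ρ τ) (hT : ∑ m ∈ Icc 3 n, nr σ (coeff m w) ≤ τ) :
    ∑ m ∈ Icc 3 M, nr ρ (coeff m w) ≤ τ + 2 := by
  obtain ⟨S, k, ρ1, ρ1', ρ2, R, t, c, b1, B2, a12, B, hk, hρ1, hρ1', hρ2, hR, ht0, ht1, hc0, h2,
    h2', h1, hc, hH, hσ, h12, hB, hb, hL⟩ := hs.ex
  have hR0 : 0 ≤ R := by linarith
  have hρR : ∀ l, 0 ≤ ρ l * R := fun l => mul_nonneg (hρ l) hR0
  have hw : Sp (nr fun l => ρ l * R) n 1 (w - resP S w) ≤ a12 + τ := by
    obtain ⟨n', rfl⟩ : ∃ n', n = n' + 2 := ⟨n - 2, by omega⟩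
    unfold Sp
    rw [Finset.sum_range_succ', Finset.sum_range_succ']
    simp only [one_pow, mul_one, Nat.zero_add]
    have h3 : ∑ i ∈ range n', nr (fun l => ρ l * R) (coeff (i + 1 + 1 + 1) (w - resP S w)) ≤
        ∑ m ∈ Icc 3 (n' + 2), nr σ (coeff m w) := by
      rw [← Finset.Ico_succ_right_eq_Icc, Finset.sum_Ico_eq_sum_range]
      simp only [Order.succ_eq_add_one, show n' + 2 + 1 - 3 = n' by omega]
      refine Finset.sum_le_sum fun i _ => ?_
      rw [show 3 + i = i + 1 + 1 + 1 by ring, map_sub, coeff_resP]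
      exact (nr_sub_res_le hρR S _).trans (nr_mono hρR hσ _)
    linarith
  have hst := fun m (hm : n < m) (hmM : m ≤ M) => stage hNew hF0 hwh hFh hk hρ hρ1 hρ1' hρ2 hR ht0
    ht1 hc0 h2 h2' h1 hc hH hw hB hb hm hmM
  have hσρ : ∀ l, ρ l ≤ σ l := fun l => le_trans (by nlinarith [hρ l]) (hσ l)
  have hB0 : 0 ≤ B * Real.exp (a12 + τ) := by
    refine mul_nonneg (le_trans ?_ hB) (Real.exp_pos _).le
    have : 0 ≤ B2 := (Sm_nonneg (sn_nr fun l => (hρ2 l).le) M zero_le_one F).trans h2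
    positivity
  have hRp : 0 < R ^ (n + 1) := by positivity
  have h4 : ∑ m ∈ Ioc n M, nr ρ (coeff m w) ≤ 2 := by
    have h5 : ∀ m ∈ Ioc n M, nr ρ (coeff m w) ≤
        2 * (B * Real.exp (a12 + τ) / R ^ (n + 1)) + nr ρ (res S (coeff m w)) := by
      intro m hm
      rw [Finset.mem_Ioc] at hm
      have e : coeff m w = coeff m (w - resP S w) + res S (coeff m w) := by
        rw [map_sub, coeff_resP]
        ring
      rw [e]
      refine (nr_add hρ _ _).trans (add_le_add (hst m hm.1 hm.2) ?_)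
      rw [← e]
    refine (Finset.sum_le_sum h5).trans ?_
    rw [Finset.sum_add_distrib, Finset.sum_const, Nat.card_Ioc, nsmul_eq_mul]
    have h6 : ((M - n : ℕ) : ℝ) * (2 * (B * Real.exp (a12 + τ) / R ^ (n + 1))) ≤ 1 := by
      have h7 : ((M - n : ℕ) : ℝ) ≤ M := by exact_mod_cast Nat.sub_le _ _
      calc _ ≤ (M : ℝ) * (2 * (B * Real.exp (a12 + τ) / R ^ (n + 1))) :=
            mul_le_mul_of_nonneg_right h7 (mul_nonneg zero_le_two (div_nonneg hB0 hRp.le))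
        _ = 2 * (M * (B * Real.exp (a12 + τ))) / R ^ (n + 1) := by ring
        _ ≤ 1 := by rw [div_le_one hRp]; exact hb
    linarith
  have h8 : ∑ m ∈ Icc 3 n, nr ρ (coeff m w) ≤ τ :=
    (Finset.sum_le_sum fun m _ => nr_mono hρ hσρ _).trans hT
  have h9 : Icc 3 M ⊆ Icc 3 n ∪ Ioc n M := by
    intro m hm
    rw [Finset.mem_union, Finset.mem_Icc, Finset.mem_Ioc]
    rw [Finset.mem_Icc] at hm
    omega
  calc _ ≤ ∑ m ∈ Icc 3 n ∪ Ioc n M, nr ρ (coeff m w) :=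
        Finset.sum_le_sum_of_subset_of_nonneg h9 fun m _ _ => nr_nonneg hρ _
    _ ≤ ∑ m ∈ Icc 3 n, nr ρ (coeff m w) + ∑ m ∈ Ioc n M, nr ρ (coeff m w) := by
        rw [← Finset.sum_union_inter]
        exact le_add_of_nonneg_right (Finset.sum_nonneg fun m _ => nr_nonneg hρ _)
    _ ≤ _ := by linarith

/-- **The tower.** -/
theorem tower {w F : (MvPolynomial J ℝ)⟦X⟧} (hNew : New w F) (hF0 : coeff 0 F = 1)
    (hwh : Hm w) (hFh : Hm F) (Nn : ℕ → ℕ) (hN2 : ∀ j, 2 ≤ Nn j) (ρ : ℕ → J → ℝ)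
    (hρ : ∀ j l, 0 ≤ ρ j l) {τ0 : ℝ} (h0 : ∑ m ∈ Icc 3 (Nn 0), nr (ρ 0) (coeff m w) ≤ τ0) (T : ℕ)
    (hs : ∀ j < T, Step w F (Nn j) (Nn (j + 1)) (ρ j) (ρ (j + 1)) (τ0 + 2 * j)) :
    ∀ j ≤ T, ∑ m ∈ Icc 3 (Nn j), nr (ρ j) (coeff m w) ≤ τ0 + 2 * j := by
  intro j
  induction j with
  | zero => intro _; simpa using h0
  | succ j ih =>
    intro hj
    have := (hs j (by omega)).next hNew hF0 hwh hFh (hN2 j) (hρ (j + 1)) (ih (by omega))
    refine this.trans_eq ?_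
    push_cast
    ring

end Vale.Agent.P042.H727
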