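import Vale.Agent.P042.H984.Interp2

/-!
# The interpolation step with one extra modulus (helper727, block F.INF of `P042`)

Besides the main family `F` (one strength per scale) there are families `Psi m`, one for every
modulus `m ∈ M`, each of which is the main family times one more coordinate: on low orders
`Psi m = Wm m * F` (convolution).  The absolute bound `hA` is summed over `m > Z` and has a gain
`Z ^ (-c4)`; the relative bound `hDm` may lose a power of `m`.  For every multi-index `a` the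
moduli are split at `Z = exp (c1 * lf ell a)`; the total of all `Psi m` is at most one quarter of
the lower bound for the total of `F`.
-/

set_option linter.unusedSectionVars false

namespace Vale.Agent.P042.H727

open Finset Vale.Agent.P042.H384 Vale.Agent.P042.H984

variable {J : Type*} [Fintype J] [DecidableEq J]

/-- `(U * F) * E = U * (F * E)` on low orders -/
lemma Xq_conv {T : Finset (J →₀ ℕ)} {F W P U : (J →₀ ℕ) → ℝ} {b0 : ℕ}
    (hE : ∀ a : J →₀ ℕ, a.degree ≤ b0 →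
      P a = ∑ x ∈ HasAntidiagonal.antidiagonal a, U x.1 * F x.2)
    (a : J →₀ ℕ) (ha : a.degree ≤ b0) :
    Xq T P W a = ∑ x ∈ HasAntidiagonal.antidiagonal a, U x.1 * Xq T F W x.2 := by
  set E := Ex T (fun m => -W m) with hEdef
  let f : MvPowerSeries J ℝ := fun m => F m
  let e : MvPowerSeries J ℝ := fun m => E m
  let w : MvPowerSeries J ℝ := fun m => U m
  have hmul : ∀ (u v : MvPowerSeries J ℝ) (b : J →₀ ℕ),
      MvPowerSeries.coeff b (u * v)
        = ∑ x ∈ HasAntidiagonal.antidiagonal b, u x.1 * v x.2 := by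
    intro u v b
    rw [MvPowerSeries.coeff_mul]
    rfl
  have h1 : Xq T P W a = ∑ x ∈ HasAntidiagonal.antidiagonal a, (w * f) x.1 * e x.2 := by
    unfold Xq
    refine Finset.sum_congr rfl fun x hx => ?_
    rw [HasAntidiagonal.mem_antidiagonal] at hx
    have hd : a.degree = x.1.degree + x.2.degree := by rw [← hx, map_add]
    have h2 : (w * f) x.1 = P x.1 := by
      rw [hE x.1 (by omega)]
      exact hmul w f x.1
    rw [h2]
  rw [h1, ← hmul (w * f) e a, mul_assoc, hmul]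
  refine Finset.sum_congr rfl fun x _ => ?_
  have h3 : (f * e) x.2 = Xq T F W x.2 := by
    unfold Xq
    exact hmul f e x.2
  rw [h3]

/-- `Xq` is additive in the family -/
lemma Xq_sum {ι : Type*} (s : Finset ι) (T : Finset (J →₀ ℕ)) (P : ι → (J →₀ ℕ) → ℝ)
    (W : (J →₀ ℕ) → ℝ) (a : J →₀ ℕ) :
    Xq T (fun b => ∑ i ∈ s, P i b) W a = ∑ i ∈ s, Xq T (P i) W a := by
  unfold Xq
  rw [Finset.sum_comm]
  refine Finset.sum_congr rfl fun x _ => ?_
  rw [Finset.sum_mul]

/-- low orders of a convolution -/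
lemma conv_low {U X : (J →₀ ℕ) → ℝ} {b0 : ℕ} {ell : J → ℝ} {κ k1 c2 c3 : ℝ}
    (hk1 : 0 ≤ k1) (hc : c3 ≤ c2) (hell : ∀ j, 0 ≤ ell j)
    (hU : ∀ b : J →₀ ℕ, b.degree ≤ b0 → |U b| ≤ Real.exp (κ + k1 * Lf b - c2 * lf ell b))
    (hX : ∀ b : J →₀ ℕ, b.degree ≤ b0 → |X b| ≤ Real.exp (k1 * Lf b - c3 * lf ell b))
    (a : J →₀ ℕ) (ha : a.degree ≤ b0) :
    |∑ x ∈ HasAntidiagonal.antidiagonal a, U x.1 * X x.2| ≤
      Real.exp (κ + ∑ j, (a j : ℝ) * Real.log 2 + (k1 * Lf a - c3 * lf ell a)) := by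
  have hlf0 : ∀ b : J →₀ ℕ, 0 ≤ lf ell b := fun b =>
    Finset.sum_nonneg fun j _ => mul_nonneg (Nat.cast_nonneg _) (hell j)
  refine (Finset.abs_sum_le_sum_abs _ _).trans ?_
  have hterm : ∀ x ∈ HasAntidiagonal.antidiagonal a,
      |U x.1 * X x.2| ≤ Real.exp (κ + (k1 * Lf a - c3 * lf ell a)) := by
    intro x hx
    rw [HasAntidiagonal.mem_antidiagonal] at hx
    have hd : a.degree = x.1.degree + x.2.degree := by rw [← hx, map_add]
    rw [abs_mul]
    refine (mul_le_mul (hU x.1 (by omega)) (hX x.2 (by omega)) (abs_nonneg _)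
      (Real.exp_pos _).le).trans ?_
    rw [← Real.exp_add]
    refine Real.exp_le_exp.mpr ?_
    have h4 : lf ell a = lf ell x.1 + lf ell x.2 := by rw [← hx, lf_add]
    have h5 : Lf x.1 + Lf x.2 ≤ Lf a := by rw [← hx]; exact Lf_add_le _ _
    have h6 := mul_le_mul_of_nonneg_left h5 hk1
    have h7 := mul_le_mul_of_nonneg_right hc (hlf0 x.1)
    rw [h4]
    linarith
  refine (Finset.sum_le_card_nsmul _ _ _ hterm).trans ?_
  rw [nsmul_eq_mul]
  refine (mul_le_mul_of_nonneg_right (card_antidiagonal_le a) (Real.exp_pos _).le).trans ?_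
  rw [← Real.exp_add]
  exact Real.exp_le_exp.mpr (by linarith)

/-- the geometric mean of the two bounds -/
lemma geo_mean {V C1 κ k1 c3 cr ph u : ℝ} {ell B : J → ℝ} {a : J →₀ ℕ}
    (hu : 0 ≤ u) (hB : ∀ j, 1 ≤ B j) (hκ : 0 ≤ κ) (hC1 : 0 ≤ C1) (hph0 : 0 ≤ ph) (hph1 : ph ≤ 1)
    (hph : ph * k1 ≤ (1 - ph) * cr)
    (h1 : |V| ≤ Real.exp (κ + u * ∑ j, (a j : ℝ) * Real.log 2 + (k1 * Lf a - c3 * lf ell a)))
    (h2 : |V| ≤ Real.exp (C1 + ∑ j, ((a j : ℝ) * (Real.log (B j) + 4) - cr * xl (a j)))) :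
    |V| ≤ Real.exp (κ + C1) *
      mo (fun j => Real.exp (Real.log (B j) + 4 + u - ph * c3 * ell j)) a := by
  have hlB : ∀ j, 0 ≤ Real.log (B j) := fun j => Real.log_nonneg (hB j)
  have hl2 : Real.log 2 ≤ 1 := by
    have := Real.log_two_lt_d9; linarith
  have hl20 : 0 < Real.log 2 := Real.log_pos (by norm_num)
  set p := κ + u * ∑ j, (a j : ℝ) * Real.log 2 + (k1 * Lf a - c3 * lf ell a) with hp
  set q := C1 + ∑ j, ((a j : ℝ) * (Real.log (B j) + 4) - cr * xl (a j)) with hq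
  have h3 : |V| ≤ Real.exp (ph * p + (1 - ph) * q) := by
    rcases le_total p q with hpq | hpq
    · refine h1.trans (Real.exp_le_exp.mpr ?_)
      nlinarith
    · refine h2.trans (Real.exp_le_exp.mpr ?_)
      nlinarith
  refine h3.trans ?_
  have h4 : mo (fun j => Real.exp (Real.log (B j) + 4 + u - ph * c3 * ell j)) a
      = Real.exp (∑ j, (a j : ℝ) * (Real.log (B j) + 4 + u - ph * c3 * ell j)) := by
    unfold mo
    rw [Real.exp_sum]
    refine Finset.prod_congr rfl fun j _ => ?_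
    rw [Real.exp_nat_mul]
  rw [h4, ← Real.exp_add]
  refine Real.exp_le_exp.mpr ?_
  set N : ℝ := ∑ j, (a j : ℝ) with hN
  have hN0 : 0 ≤ N := Finset.sum_nonneg fun j _ => Nat.cast_nonneg _
  set G : ℝ := ∑ j, (a j : ℝ) * (Real.log (B j) + 4) with hG
  have h5 : ∑ j, (a j : ℝ) * (Real.log (B j) + 4 + u - ph * c3 * ell j)
      = G + u * N - ph * c3 * lf ell a := by
    unfold lf
    rw [hG, hN, Finset.mul_sum, Finset.mul_sum, ← Finset.sum_add_distrib,
      ← Finset.sum_sub_distrib]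
    refine Finset.sum_congr rfl fun j _ => ?_
    ring
  have h6 : q = C1 + G - cr * Lf a := by
    rw [hq, Finset.sum_sub_distrib]
    unfold Lf
    rw [Finset.mul_sum]
    ring
  have h7 : 0 ≤ G :=
    Finset.sum_nonneg fun j _ => mul_nonneg (Nat.cast_nonneg _) (by linarith [hlB j])
  have h8 : 0 ≤ Lf a := Finset.sum_nonneg fun j _ => xl_nonneg _
  have h8' : ∑ j, (a j : ℝ) * Real.log 2 = N * Real.log 2 := by rw [hN, Finset.sum_mul]
  have h8'' : N * Real.log 2 ≤ N := by nlinarith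
  rw [h5, h6, hp, h8']
  have h9 : (ph * k1 - (1 - ph) * cr) * Lf a ≤ 0 :=
    mul_nonpos_of_nonpos_of_nonneg (by linarith) h8
  have h10 : 0 ≤ ph * C1 := mul_nonneg hph0 hC1
  have h11 : 0 ≤ ph * G := mul_nonneg hph0 h7
  have h12 : ph * (u * (N * Real.log 2)) ≤ u * N := by
    have h13 : ph * (u * (N * Real.log 2)) ≤ 1 * (u * (N * Real.log 2)) :=
      mul_le_mul_of_nonneg_right hph1 (by positivity)
    have h14 := mul_le_mul_of_nonneg_left h8'' hu
    linarith
  have h13 : ph * κ ≤ κ := by nlinarith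
  nlinarith

/-- the orders above `b0` -/
lemma tail_sum {b0 : ℕ} {D : ℝ} (hD : D + Fintype.card J + 3 ≤ b0) (A : Finset (J →₀ ℕ)) :
    ∑ a ∈ A.filter (fun a : J →₀ ℕ => ¬ a.degree ≤ b0),
      Real.exp (D - 2 * (a.degree : ℝ)) ≤ 1 / 8 := by
  classical
  have hle : ∀ a ∈ A.filter (fun a : J →₀ ℕ => ¬ a.degree ≤ b0),
      Real.exp (D - 2 * (a.degree : ℝ))
        ≤ Real.exp (D - b0) * mo (fun _ : J => Real.exp (-1)) a := by
    intro a ha
    have ha' := not_le.mp (Finset.mem_filter.mp ha).2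
    have h4 : mo (fun _ : J => Real.exp (-1)) a = Real.exp (-(a.degree : ℝ)) := by
      unfold mo
      rw [Finsupp.degree_eq_sum]
      push_cast
      rw [← Finset.sum_neg_distrib, Real.exp_sum]
      refine Finset.prod_congr rfl fun j _ => ?_
      rw [← Real.exp_nat_mul]
      congr 1; ring
    rw [h4, ← Real.exp_add]
    refine Real.exp_le_exp.mpr ?_
    have h7 : (b0 : ℝ) ≤ a.degree := by exact_mod_cast ha'.le
    linarith
  refine (Finset.sum_le_sum hle).trans ?_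
  rw [← Finset.mul_sum]
  have hexp1 : Real.exp (-1) < 1 := by rw [Real.exp_lt_one_iff]; norm_num
  have e2 := sum_mo_le_prod (y := fun _ : J => Real.exp (-1)) (fun j => (Real.exp_pos _).le)
    (fun j => hexp1) (A.filter (fun a : J →₀ ℕ => ¬ a.degree ≤ b0))
  have hlin : (2 : ℝ) ≤ Real.exp 1 := by
    have := Real.add_one_le_exp (1 : ℝ); linarith
  have e3 : (1 - Real.exp (-1))⁻¹ ≤ Real.exp 1 := by
    have h5 : Real.exp 1 * Real.exp (-1) = 1 := by rw [← Real.exp_add]; simp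
    rw [inv_le_comm₀ (by linarith) (Real.exp_pos _), ← Real.exp_neg]
    have h6 := Real.exp_pos (-1)
    nlinarith
  have e4 : ∏ _j : J, (1 - Real.exp (-1))⁻¹ ≤ Real.exp (Fintype.card J) := by
    rw [Finset.prod_const, Finset.card_univ]
    refine (pow_le_pow_left₀ (by rw [inv_nonneg]; linarith) e3 _).trans (le_of_eq ?_)
    rw [← Real.exp_nat_mul, mul_one]
  have e5 : Real.exp (D - b0) * Real.exp (Fintype.card J) ≤ 1 / 8 := by
    rw [← Real.exp_add]
    have h7 : Real.exp (D - b0 + Fintype.card J) ≤ Real.exp (-3) :=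
      Real.exp_le_exp.mpr (by linarith)
    refine h7.trans ?_
    have h8 : (8 : ℝ) ≤ Real.exp 3 := by
      have h9 : Real.exp 3 = Real.exp 1 ^ 3 := by rw [← Real.exp_nat_mul]; norm_num
      rw [h9]
      calc (8 : ℝ) = 2 ^ 3 := by norm_num
        _ ≤ Real.exp 1 ^ 3 := pow_le_pow_left₀ (by norm_num) hlin 3
    rw [Real.exp_neg, one_div]
    exact inv_anti₀ (by norm_num) h8
  exact (mul_le_mul_of_nonneg_left (e2.trans e4) (Real.exp_pos _).le).trans e5

/-- the product formula -/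
lemma prod_form {T S : Finset (J →₀ ℕ)} {F W : (J →₀ ℕ) → ℝ} (hT0 : 0 ∉ T)
    (hFS : ∀ a, a ∉ S → F a = 0) :
    ∑ a ∈ S, F a = (∑' a, Xq T F W a) * Real.exp (∑ m ∈ T, W m) := by
  have hsF : HasSum F (∑ a ∈ S, F a) := hasSum_sum_of_ne_finset_zero hFS
  have hsE := summable_abs_Ex hT0 (fun m => -W m)
  have hsFa : Summable fun a => |F a| :=
    (hasSum_sum_of_ne_finset_zero (s := S) (fun a ha => by rw [hFS a ha, abs_zero])).summable
  have hprod : (∑' a, F a) * ∑' a, Ex T (fun m => -W m) a = ∑' a, Xq T F W a := by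
    refine hsF.summable.tsum_mul_tsum_eq_tsum_sum_antidiagonal hsE.of_abs ?_
    refine (hsFa.mul_of_nonneg hsE (fun _ => abs_nonneg _) (fun _ => abs_nonneg _)).of_norm_bounded
      fun x => ?_
    rw [Real.norm_eq_abs, abs_mul]
  rw [hsF.tsum_eq, tsum_Ex hT0, Finset.sum_neg_distrib] at hprod
  rw [← hprod, mul_assoc, ← Real.exp_add]
  simp

/-- a family with small mass -/
lemma tsum_small {Y : (J →₀ ℕ) → ℝ} {c : ℝ} (h : ∀ A : Finset (J →₀ ℕ), ∑ a ∈ A, |Y a| ≤ c) :
    Summable (fun a => |Y a|) ∧ |∑' a, Y a| ≤ c := by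
  have hs : Summable fun a => |Y a| := summable_of_sum_le (fun a => abs_nonneg _) h
  refine ⟨hs, ?_⟩
  refine (Real.norm_eq_abs _ ▸ norm_tsum_le_tsum_norm (by simpa [Real.norm_eq_abs] using hs)).trans ?_
  exact hs.tsum_le_of_sum_le fun A => h A

/-- all orders, one radius `exp 3`, for a family with a small constant -/
lemma bound_tail' {T : Finset (J →₀ ℕ)} {F W : (J →₀ ℕ) → ℝ} {B rho : J → ℝ} {C1 : ℝ}
    (hT0 : 0 ∉ T)
    (hrho : ∀ j, Real.exp 3 ≤ rho j)
    (hF1 : ∀ r : J → ℝ, (∀ j, 0 ≤ r j) → (∀ j, r j ≤ rho j) →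
      ∀ a : J →₀ ℕ, |F a| * mo r a ≤ Real.exp (C1 + ∑ j, B j * (r j + r j ^ 2)))
    (hT : ∀ r : J → ℝ, (∀ j, 0 ≤ r j) →
      ∑ m ∈ T, |W m| * mo r m ≤ ∑ j, B j * (r j + r j ^ 2))
    (hB : ∀ j, 1 ≤ B j) {b0 : ℕ} (hb : C1 + 900 * ∑ j, B j + Fintype.card J + 3 ≤ b0)
    (A : Finset (J →₀ ℕ)) :
    ∑ a ∈ A.filter (fun a : J →₀ ℕ => ¬ a.degree ≤ b0), |Xq T F W a| ≤ 1 / 8 :=
  (Finset.sum_le_sum fun a _ => bound_tail hT0 hrho hF1 hT hB a).trans (tail_sum hb A)

lemma sum_mo_le' {y : J → ℝ} (hy0 : ∀ j, 0 ≤ y j) {s : ℝ} (hs : ∑ j, y j ≤ s) (hs2 : s ≤ 1 / 2)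
    (A : Finset (J →₀ ℕ)) : ∑ a ∈ A, mo y a ≤ 1 + 2 * s := by
  classical
  have h1 : ∑ a ∈ A, mo y a ≤ ∑ a ∈ insert 0 (A.erase 0), mo y a :=
    Finset.sum_le_sum_of_subset_of_nonneg (by
      intro a ha
      by_cases h : a = 0
      · rw [h]; exact Finset.mem_insert_self _ _
      · exact Finset.mem_insert_of_mem (Finset.mem_erase.mpr ⟨h, ha⟩))
      fun a _ _ => mo_nonneg hy0 a
  rw [Finset.sum_insert (Finset.notMem_erase _ _)] at h1
  have h2 := sum_mo_le hy0 hs hs2 (A.erase 0) (Finset.notMem_erase _ _)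
  have h0 : mo y (0 : J →₀ ℕ) = 1 := by simp [mo]
  linarith

/-- **the interpolation theorem with one extra modulus** -/
theorem interp_star (F W : (J →₀ ℕ) → ℝ) (S T : Finset (J →₀ ℕ)) (b0 : ℕ) (ell B rho : J → ℝ)
    (C1 k1 c2 c3 cr ph : ℝ)
    (hF0 : F 0 = 1) (hFS : ∀ a, a ∉ S → F a = 0)
    (hrho : ∀ j, Real.exp 3 ≤ rho j)
    (hFr : ∀ a : J →₀ ℕ, F a ≠ 0 → a.degree ≤ b0 → ∀ j, a j ≠ 0 →
      cr * Real.log (a j) ≤ Real.log (rho j))
    (hE : ∀ a : J →₀ ℕ, a.degree ≤ b0 → (a.degree : ℝ) * F a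
      = ∑ x ∈ HasAntidiagonal.antidiagonal a, (x.1.degree : ℝ) * W x.1 * F x.2)
    (hT0 : 0 ∉ T)
    (hF1 : ∀ r : J → ℝ, (∀ j, 0 ≤ r j) → (∀ j, r j ≤ rho j) →
      ∀ a : J →₀ ℕ, |F a| * mo r a ≤ Real.exp (C1 + ∑ j, B j * (r j + r j ^ 2)))
    (hT : ∀ r : J → ℝ, (∀ j, 0 ≤ r j) →
      ∑ m ∈ T, |W m| * mo r m ≤ ∑ j, B j * (r j + r j ^ 2))
    (hD : ∀ m : J →₀ ℕ, m ≠ 0 → m ∉ T → m.degree ≤ b0 →
      |W m| ≤ Real.exp (k1 * Lf m - c2 * lf ell m))
    (hB : ∀ j, 1 ≤ B j) (hC1 : 0 ≤ C1)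
    (hcr0 : 0 < cr) (hcr : cr ≤ 1 / 2) (hk1 : 0 ≤ k1) (hph0 : 0 ≤ ph) (hph1 : ph ≤ 1)
    (hph : ph * k1 ≤ (1 - ph) * cr)
    (hs1 : ∑ j, Real.exp (-((c2 - c3) * ell j)) ≤ 1 / 4)
    (hs2 : ∑ j, Real.exp (Real.log (B j) + 4 - ph * c3 * ell j) ≤ Real.exp (-C1) / 32)
    (hs3 : C1 + 900 * ∑ j, B j + Fintype.card J + 3 ≤ b0)
    -- the extra moduli
    (M : Finset ℕ) (hM2 : ∀ m ∈ M, 2 ≤ m) (Psi Wm : ℕ → (J →₀ ℕ) → ℝ)
    (hPS : ∀ m ∈ M, ∀ a, a ∉ S → Psi m a = 0)
    (hPr : ∀ m ∈ M, ∀ a : J →₀ ℕ, Psi m a ≠ 0 → a.degree ≤ b0 → ∀ j, a j ≠ 0 →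
      cr * Real.log (a j) ≤ Real.log (rho j))
    (δ c4 c1 k2 Lm : ℝ) (hδ0 : 0 < δ) (hδ : δ * Real.exp C1 ≤ 1 / 64)
    (hell : ∀ j, 0 ≤ ell j) (hc23 : c3 ≤ c2) (hc1 : 0 ≤ c1) (hk2 : 0 ≤ k2)
    (hA : ∀ Z : ℝ, 1 ≤ Z → ∀ r : J → ℝ, (∀ j, 0 ≤ r j) → (∀ j, r j ≤ rho j) →
      ∀ a : J →₀ ℕ, (∑ m ∈ M.filter (fun m : ℕ => Z < (m : ℝ)), |Psi m a|) * mo r a ≤
        δ * Real.exp (-(c4 * Real.log Z)) * Real.exp (C1 + ∑ j, B j * (r j + r j ^ 2)))
    (hLm : ∀ a : J →₀ ℕ, a.degree ≤ b0 → c1 * lf ell a ≤ Lm)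
    (hEm : ∀ m ∈ M, Real.log m ≤ Lm → ∀ a : J →₀ ℕ, a.degree ≤ b0 →
      Psi m a = ∑ x ∈ HasAntidiagonal.antidiagonal a, Wm m x.1 * F x.2)
    (hDm : ∀ m ∈ M, Real.log m ≤ Lm → ∀ b : J →₀ ℕ, b.degree ≤ b0 →
      |Wm m b| ≤ Real.exp (k2 * Real.log m + k1 * Lf b - c2 * lf ell b))
    (hs4 : ∑ j, Real.exp (Real.log (B j) + 4 - c1 * c4 * ell j) ≤ 1 / 4)
    (hs5 : ∑ j, Real.exp (Real.log (B j) + 5 - (ph * c3 - c1 * (k2 + 1)) * ell j) ≤
      Real.exp (-C1) / 64) :
    1 / 2 * Real.exp (-∑ m ∈ T, |W m|) ≤ ∑ a ∈ S, F a + ∑ m ∈ M, ∑ a ∈ S, Psi m a := by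
  classical
  set X := Xq T F W with hXdef
  have hX0 : X 0 = 1 := Xq_zero hF0
  have hexpC : Real.exp C1 * Real.exp (-C1) = 1 := by rw [← Real.exp_add]; simp
  have hexpC1 : Real.exp (-C1) ≤ 1 := by rw [Real.exp_le_one_iff]; linarith
  have hlf0 : ∀ b : J →₀ ℕ, 0 ≤ lf ell b := fun b =>
    Finset.sum_nonneg fun j _ => mul_nonneg (Nat.cast_nonneg _) (hell j)
  -- low orders of the main family
  have hlow : ∀ a : J →₀ ℕ, a.degree ≤ b0 → |X a| ≤ Real.exp (k1 * Lf a - c3 * lf ell a) := by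
    intro a ha
    refine bound_low (V := fun m => if m ∈ T then 0 else W m) (c2 := c2) hX0 ?_ hk1 ?_ hs1
      a.degree a rfl ha
    · intro b hb
      rw [hXdef, euler_Xq hT0 hE b hb]
      refine Finset.sum_congr rfl fun x _ => ?_
      split_ifs <;> simp
    · intro m hm hmb
      by_cases hmT : m ∈ T
      · simp only [if_pos hmT, abs_zero]; exact (Real.exp_pos _).le
      · simp only [if_neg hmT]; exact hD m hm hmT hmb
  -- the main family: total mass of `X` off zero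
  have hXmass : ∀ A : Finset (J →₀ ℕ), 0 ∉ A → ∑ a ∈ A, |X a| ≤ 1 / 4 := by
    intro A hA0
    rw [← Finset.sum_filter_add_sum_filter_not A (fun a : J →₀ ℕ => a.degree ≤ b0)]
    have h2 := bound_tail' hT0 hrho hF1 hT hB hs3 A
    have h1 : ∑ a ∈ A.filter (fun a : J →₀ ℕ => a.degree ≤ b0), |X a| ≤ 1 / 16 := by
      have e1 : ∀ a ∈ A.filter (fun a : J →₀ ℕ => a.degree ≤ b0), |X a| ≤
          Real.exp C1 * mo (fun j => Real.exp (Real.log (B j) + 4 - ph * c3 * ell j)) a := by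
        intro a ha
        have hab := (Finset.mem_filter.mp ha).2
        have hg := geo_mean (u := 0) (κ := 0) le_rfl hB le_rfl hC1 hph0 hph1 hph
          (by rw [zero_mul, add_zero, zero_add]; exact hlow a hab)
          (bound_high2 hT0 hrho hFr hF1 hT hB hcr0 hcr a hab)
        rw [zero_add] at hg
        simpa only [add_zero] using hg
      refine (Finset.sum_le_sum e1).trans ?_
      rw [← Finset.mul_sum]
      have e2 := sum_mo_le (y := fun j => Real.exp (Real.log (B j) + 4 - ph * c3 * ell j))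
        (fun j => (Real.exp_pos _).le) hs2 (by linarith)
        (A.filter (fun a : J →₀ ℕ => a.degree ≤ b0)) (by simp [hA0])
      have e4 := mul_le_mul_of_nonneg_left e2 (Real.exp_pos C1).le
      nlinarith
    linarith
  -- the extra moduli: low orders
  have hPm : ∀ m ∈ M, ∀ r : J → ℝ, (∀ j, 0 ≤ r j) → (∀ j, r j ≤ rho j) →
      ∀ a : J →₀ ℕ, |Psi m a| * mo r a ≤ Real.exp (C1 + ∑ j, B j * (r j + r j ^ 2)) := by
    intro m hm r hr0 hr1 a
    have h1 := hA 1 le_rfl r hr0 hr1 a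
    rw [Real.log_one, mul_zero, neg_zero, Real.exp_zero, mul_one] at h1
    have h2 : |Psi m a| ≤ ∑ m ∈ M.filter (fun m : ℕ => (1 : ℝ) < (m : ℝ)), |Psi m a| := by
      refine Finset.single_le_sum (f := fun m => |Psi m a|) (fun i _ => abs_nonneg _) ?_
      rw [Finset.mem_filter]
      refine ⟨hm, ?_⟩
      have := hM2 m hm
      have h3 : (2 : ℝ) ≤ m := by exact_mod_cast this
      linarith
    have h3 := mul_le_mul_of_nonneg_right h2 (mo_nonneg hr0 a)
    refine h3.trans (h1.trans ?_)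
    have h4 : δ ≤ 1 := by
      have h5 : (1 : ℝ) ≤ Real.exp C1 := Real.one_le_exp hC1
      nlinarith
    have h5 := Real.exp_pos (C1 + ∑ j, B j * (r j + r j ^ 2))
    nlinarith
  have hsmall : ∀ m ∈ M, Real.log m ≤ Lm → ∀ a : J →₀ ℕ, a.degree ≤ b0 →
      |Xq T (Psi m) W a| ≤ Real.exp (k2 * Real.log m + C1) *
        mo (fun j => Real.exp (Real.log (B j) + 5 - ph * c3 * ell j)) a := by
    intro m hm hml a ha
    have hm1 : (1 : ℝ) ≤ m := by
      have h3 : (2 : ℝ) ≤ m := by exact_mod_cast hM2 m hm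
      linarith
    have hlm : 0 ≤ Real.log m := Real.log_nonneg hm1
    have h1 : |Xq T (Psi m) W a| ≤ Real.exp (k2 * Real.log m + ∑ j, (a j : ℝ) * Real.log 2 +
        (k1 * Lf a - c3 * lf ell a)) := by
      rw [Xq_conv (hEm m hm hml) a ha]
      exact conv_low hk1 hc23 hell (hDm m hm hml) hlow a ha
    have hg := geo_mean (u := 1) (κ := k2 * Real.log m) zero_le_one hB (by positivity) hC1 hph0
      hph1 hph (by rw [one_mul]; exact h1)
      (bound_high2 hT0 hrho (hPr m hm) (hPm m hm) hT hB hcr0 hcr a ha)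
    have e : (fun j => Real.exp (Real.log (B j) + 4 + 1 - ph * c3 * ell j)) =
        fun j => Real.exp (Real.log (B j) + 5 - ph * c3 * ell j) := by
      funext j
      congr 1; ring
    rwa [e] at hg
  -- the total family
  set G : (J →₀ ℕ) → ℝ := fun a => ∑ m ∈ M, Psi m a with hG
  set y4 : J → ℝ := fun j => Real.exp (Real.log (B j) + 4 - c1 * c4 * ell j) with hy4
  set y5 : J → ℝ := fun j => Real.exp (Real.log (B j) + 5 - (ph * c3 - c1 * (k2 + 1)) * ell j)
    with hy5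
  have hY : ∀ a : J →₀ ℕ, a.degree ≤ b0 → |Xq T G W a| ≤
      (if a = 0 then 0 else Real.exp C1 * mo y5 a) + δ * Real.exp C1 * mo y4 a := by
    intro a ha
    set Z : ℝ := Real.exp (c1 * lf ell a) with hZ
    have hZ1 : 1 ≤ Z := Real.one_le_exp (mul_nonneg hc1 (hlf0 a))
    have hlZ : Real.log Z = c1 * lf ell a := Real.log_exp _
    have hsplit : Xq T G W a = ∑ m ∈ M.filter (fun m : ℕ => ¬ Z < (m : ℝ)), Xq T (Psi m) W a +
        Xq T (fun b => ∑ m ∈ M.filter (fun m : ℕ => Z < (m : ℝ)), Psi m b) W a := by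
      rw [hG, Xq_sum, Xq_sum, add_comm, Finset.sum_filter_add_sum_filter_not]
    rw [hsplit]
    refine (abs_add_le _ _).trans (add_le_add ?_ ?_)
    · -- small moduli
      refine (Finset.abs_sum_le_sum_abs _ _).trans ?_
      split_ifs with h0
      · have hZ0 : Z = 1 := by rw [hZ, h0]; simp [lf]
        refine le_of_eq (Finset.sum_eq_zero fun m hm => ?_)
        exfalso
        have h1 := (Finset.mem_filter.mp hm).2
        have h2 : (2 : ℝ) ≤ m := by exact_mod_cast hM2 m (Finset.mem_filter.mp hm).1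
        rw [hZ0] at h1
        linarith
      · have hterm : ∀ m ∈ M.filter (fun m : ℕ => ¬ Z < (m : ℝ)), |Xq T (Psi m) W a| ≤
            Real.exp (k2 * (c1 * lf ell a)) * (Real.exp C1 *
              mo (fun j => Real.exp (Real.log (B j) + 5 - ph * c3 * ell j)) a) := by
          intro m hm
          obtain ⟨hmM, hmZ⟩ := Finset.mem_filter.mp hm
          have hmZ' := not_lt.mp hmZ
          have hm1 : (0 : ℝ) < m := by
            have h3 : (2 : ℝ) ≤ m := by exact_mod_cast hM2 m hmM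
            linarith
          have hlm : Real.log m ≤ c1 * lf ell a := by
            rw [← hlZ]; exact Real.log_le_log hm1 hmZ'
          refine (hsmall m hmM (hlm.trans (hLm a ha)) a ha).trans ?_
          rw [← mul_assoc, ← Real.exp_add]
          refine mul_le_mul_of_nonneg_right (Real.exp_le_exp.mpr ?_)
            (mo_nonneg (fun j => (Real.exp_pos _).le) a)
          have := mul_le_mul_of_nonneg_left hlm hk2
          linarith
        refine (Finset.sum_le_card_nsmul _ _ _ hterm).trans ?_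
        rw [nsmul_eq_mul]
        have hcard : ((M.filter (fun m : ℕ => ¬ Z < (m : ℝ))).card : ℝ) ≤ Z := by
          have h1 : M.filter (fun m : ℕ => ¬ Z < (m : ℝ)) ⊆ Finset.Ioc 0 ⌊Z⌋₊ := by
            intro m hm
            obtain ⟨hmM, hmZ⟩ := Finset.mem_filter.mp hm
            rw [Finset.mem_Ioc]
            exact ⟨by have := hM2 m hmM; omega, Nat.le_floor (not_lt.mp hmZ)⟩
          have h2 := Finset.card_le_card h1
          rw [Nat.card_Ioc, Nat.sub_zero] at h2
          have h3 : ((M.filter (fun m : ℕ => ¬ Z < (m : ℝ))).card : ℝ) ≤ (⌊Z⌋₊ : ℝ) := by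
            exact_mod_cast h2
          exact h3.trans (Nat.floor_le (by linarith))
        have hmo0 : 0 ≤ mo (fun j => Real.exp (Real.log (B j) + 5 - ph * c3 * ell j)) a :=
          mo_nonneg (fun j => (Real.exp_pos _).le) a
        refine (mul_le_mul_of_nonneg_right hcard (by positivity)).trans (le_of_eq ?_)
        have e1 : mo y5 a = mo (fun j => Real.exp (Real.log (B j) + 5 - ph * c3 * ell j)) a *
            Real.exp (c1 * (k2 + 1) * lf ell a) := by
          have e2 : Real.exp (c1 * (k2 + 1) * lf ell a)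
              = mo (fun j => Real.exp (c1 * (k2 + 1) * ell j)) a := by
            have := exp_neg_lf ell a (-(c1 * (k2 + 1)))
            rw [neg_mul, neg_neg] at this
            rw [this]
            congr 1
            funext j
            congr 1; ring
          rw [e2]
          unfold mo
          rw [← Finset.prod_mul_distrib]
          refine Finset.prod_congr rfl fun j _ => ?_
          rw [← mul_pow, hy5]
          simp only
          rw [← Real.exp_add]
          congr 2; ring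
        rw [e1, hZ]
        have e3 : Real.exp (c1 * (k2 + 1) * lf ell a) = Real.exp (c1 * lf ell a) *
            Real.exp (k2 * (c1 * lf ell a)) := by
          rw [← Real.exp_add]; congr 1; ring
        rw [e3]
        ring
    · -- large moduli
      have hF1' : ∀ r : J → ℝ, (∀ j, 0 ≤ r j) → (∀ j, r j ≤ rho j) → ∀ b : J →₀ ℕ,
          |∑ m ∈ M.filter (fun m : ℕ => Z < (m : ℝ)), Psi m b| * mo r b ≤
            Real.exp ((Real.log δ - c4 * Real.log Z + C1) + ∑ j, B j * (r j + r j ^ 2)) := by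
        intro r hr0 hr1 b
        have h1 := hA Z hZ1 r hr0 hr1 b
        refine (mul_le_mul_of_nonneg_right (Finset.abs_sum_le_sum_abs _ _)
          (mo_nonneg hr0 b)).trans (h1.trans (le_of_eq ?_))
        conv_lhs => rw [← Real.exp_log hδ0]
        rw [← Real.exp_add, ← Real.exp_add]
        congr 1; ring
      have hFr' : ∀ b : J →₀ ℕ, (∑ m ∈ M.filter (fun m : ℕ => Z < (m : ℝ)), Psi m b) ≠ 0 →
          b.degree ≤ b0 → ∀ j, b j ≠ 0 → cr * Real.log (b j) ≤ Real.log (rho j) := by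
        intro b hb hbd j hj
        obtain ⟨m, hm, hmb⟩ := Finset.exists_ne_zero_of_sum_ne_zero hb
        exact hPr m (Finset.mem_filter.mp hm).1 b hmb hbd j hj
      have h1 := bound_high2 hT0 hrho hFr' hF1' hT hB hcr0 hcr a ha
      refine h1.trans ?_
      have e4 : mo y4 a = Real.exp (∑ j, (a j : ℝ) * (Real.log (B j) + 4) -
          c1 * c4 * lf ell a) := by
        unfold mo lf
        rw [Finset.mul_sum, ← Finset.sum_sub_distrib, Real.exp_sum]
        refine Finset.prod_congr rfl fun j _ => ?_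
        rw [hy4]
        simp only
        rw [← Real.exp_nat_mul]
        congr 1; ring
      rw [e4, hlZ]
      conv_rhs => rw [← Real.exp_log hδ0]
      rw [← Real.exp_add, ← Real.exp_add]
      refine Real.exp_le_exp.mpr ?_
      rw [Finset.sum_sub_distrib]
      have h3 : 0 ≤ ∑ j, cr * xl (a j) :=
        Finset.sum_nonneg fun j _ => mul_nonneg hcr0.le (xl_nonneg _)
      linarith
  have hYmass : ∀ A : Finset (J →₀ ℕ), ∑ a ∈ A, |Xq T G W a| ≤ 1 / 4 := by
    intro A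
    rw [← Finset.sum_filter_add_sum_filter_not A (fun a : J →₀ ℕ => a.degree ≤ b0)]
    have hF1' : ∀ r : J → ℝ, (∀ j, 0 ≤ r j) → (∀ j, r j ≤ rho j) → ∀ b : J →₀ ℕ,
        |G b| * mo r b ≤ Real.exp (C1 + ∑ j, B j * (r j + r j ^ 2)) := by
      intro r hr0 hr1 b
      have h1 := hA 1 le_rfl r hr0 hr1 b
      rw [Real.log_one, mul_zero, neg_zero, Real.exp_zero, mul_one] at h1
      have h2 : |G b| ≤ ∑ m ∈ M.filter (fun m : ℕ => (1 : ℝ) < (m : ℝ)), |Psi m b| := by
        have h3 : M.filter (fun m : ℕ => (1 : ℝ) < (m : ℝ)) = M := by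
          refine Finset.filter_true_of_mem fun m hm => ?_
          have h3 : (2 : ℝ) ≤ m := by exact_mod_cast hM2 m hm
          linarith
        rw [h3]
        exact Finset.abs_sum_le_sum_abs _ _
      have h3 := mul_le_mul_of_nonneg_right h2 (mo_nonneg hr0 b)
      refine h3.trans (h1.trans ?_)
      have h4 : δ ≤ 1 := by
        have h5 : (1 : ℝ) ≤ Real.exp C1 := Real.one_le_exp hC1
        nlinarith
      have h5 := Real.exp_pos (C1 + ∑ j, B j * (r j + r j ^ 2))
      nlinarith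
    have h2 := bound_tail' hT0 hrho hF1' hT hB hs3 A
    have h1 : ∑ a ∈ A.filter (fun a : J →₀ ℕ => a.degree ≤ b0), |Xq T G W a| ≤ 1 / 16 := by
      refine (Finset.sum_le_sum fun a ha => hY a (Finset.mem_filter.mp ha).2).trans ?_
      rw [Finset.sum_add_distrib]
      set A' := A.filter (fun a : J →₀ ℕ => a.degree ≤ b0) with hA'
      have e1 : ∑ a ∈ A', (if a = 0 then 0 else Real.exp C1 * mo y5 a) ≤ 1 / 32 := by
        have e2 : ∑ a ∈ A', (if a = 0 then 0 else Real.exp C1 * mo y5 a)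
            = ∑ a ∈ A'.erase 0, Real.exp C1 * mo y5 a := by
          rw [← Finset.sum_erase A' (a := 0) (by simp)]
          refine Finset.sum_congr rfl fun a ha => ?_
          rw [if_neg (Finset.ne_of_mem_erase ha)]
        rw [e2, ← Finset.mul_sum]
        have e3 := sum_mo_le (y := y5) (fun j => (Real.exp_pos _).le) hs5 (by linarith)
          (A'.erase 0) (Finset.notMem_erase _ _)
        have e4 := mul_le_mul_of_nonneg_left e3 (Real.exp_pos C1).le
        nlinarith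
      have e5 : ∑ a ∈ A', δ * Real.exp C1 * mo y4 a ≤ 1 / 32 := by
        rw [← Finset.mul_sum]
        have e3 := sum_mo_le' (y := y4) (fun j => (Real.exp_pos _).le) hs4 (by norm_num) A'
        have e6 : 0 ≤ δ * Real.exp C1 := by positivity
        have e4 := mul_le_mul_of_nonneg_left e3 e6
        linarith
      linarith
    linarith
  -- the two totals
  have hXs : Summable (fun a => |X a|) := by
    refine summable_of_sum_le (c := 2) (fun a => abs_nonneg _) fun A => ?_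
    have h1 : ∑ a ∈ A, |X a| ≤ ∑ a ∈ insert 0 (A.erase 0), |X a| :=
      Finset.sum_le_sum_of_subset_of_nonneg (by
        intro a ha
        by_cases h : a = 0
        · rw [h]; exact Finset.mem_insert_self _ _
        · exact Finset.mem_insert_of_mem (Finset.mem_erase.mpr ⟨h, ha⟩))
        fun a _ _ => abs_nonneg _
    rw [Finset.sum_insert (Finset.notMem_erase _ _), hX0, abs_one] at h1
    have := hXmass (A.erase 0) (Finset.notMem_erase _ _)
    linarith
  have hXge : 3 / 4 ≤ ∑' a, X a := by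
    have h1 := hXs.of_abs.sum_add_tsum_subtype_compl {0}
    rw [Finset.sum_singleton, hX0] at h1
    have h2 : |∑' x : {x // x ∉ ({0} : Finset (J →₀ ℕ))}, X x| ≤ 1 / 4 := by
      have hs : Summable fun x : {x // x ∉ ({0} : Finset (J →₀ ℕ))} => |X x| :=
        hXs.subtype _
      refine (Real.norm_eq_abs _ ▸
        norm_tsum_le_tsum_norm (by simpa [Real.norm_eq_abs] using hs)).trans ?_
      refine hs.tsum_le_of_sum_le fun A => ?_
      have h3 := hXmass (A.map (Function.Embedding.subtype _)) (by simp)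
      rw [Finset.sum_map] at h3
      exact h3
    have h3 := neg_abs_le (∑' x : {x // x ∉ ({0} : Finset (J →₀ ℕ))}, X x)
    linarith
  have hYle := (tsum_small hYmass).2
  have hGS : ∀ a, a ∉ S → G a = 0 := fun a ha =>
    Finset.sum_eq_zero fun m hm => hPS m hm a ha
  have hcomm : ∑ m ∈ M, ∑ a ∈ S, Psi m a = ∑ a ∈ S, G a := by
    rw [hG, Finset.sum_comm]
  rw [hcomm, prod_form hT0 hFS, prod_form hT0 hGS, ← add_mul]
  have h1 : -∑ m ∈ T, |W m| ≤ ∑ m ∈ T, W m := by
    rw [← Finset.sum_neg_distrib]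
    exact Finset.sum_le_sum fun m _ => neg_abs_le _
  have h2 := Real.exp_le_exp.mpr h1
  have h3 := Real.exp_pos (-∑ m ∈ T, |W m|)
  have h4 := neg_abs_le (∑' a, Xq T G W a)
  have h5 : 1 / 2 ≤ ∑' a, Xq T F W a + ∑' a, Xq T G W a := by linarith
  calc 1 / 2 * Real.exp (-∑ m ∈ T, |W m|) ≤ 1 / 2 * Real.exp (∑ m ∈ T, W m) := by linarith
    _ ≤ _ := mul_le_mul_of_nonneg_right h5 (Real.exp_pos _).le

end Vale.Agent.P042.H727
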