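import Vale.Agent.P042.H727.Mon
import Vale.Agent.P042.H727.Rel

/-!
# Sums over the scales
-/

open Finset PowerSeries

set_option linter.unusedSectionVars false

namespace Vale.Agent.P042.H727

variable {J : Type*} [Fintype J] [DecidableEq J]

/-- Norms of several homogeneous parts together. -/
theorem sum_nr_le {f : ℕ → MvPolynomial J ℝ} (hh : ∀ m, (f m).IsHomogeneous m) {I : Finset ℕ}
    (hI : 0 ∉ I) {ρ x : J → ℝ} (hx0 : ∀ l, 0 ≤ x l) (hx : ∑ l, x l ≤ 1 / 4)
    (h : ∀ m ∈ I, ∀ a ∈ (f m).support, |(f m).coeff a| * mon ρ a ≤ mon x a) :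
    ∑ m ∈ I, nr ρ (f m) ≤ 4 * ∑ l, x l := by
  have hdeg : ∀ m, ∀ a ∈ (f m).support, a.degree = m := by
    intro m a ha
    have h3 : Finsupp.weight (1 : J → ℕ) a = m := hh m (MvPolynomial.mem_support_iff.1 ha)
    rw [Finsupp.degree_eq_weight_one]
    exact h3
  have h1 : ∑ m ∈ I, nr ρ (f m) ≤ ∑ m ∈ I, ∑ a ∈ (f m).support, mon x a :=
    Finset.sum_le_sum fun m hm => Finset.sum_le_sum fun a ha => h m hm a ha
  refine h1.trans ?_
  rw [← Finset.sum_biUnion]
  · refine sum_mon_le hx0 hx _ fun a ha => ?_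
    obtain ⟨m, hm, ha'⟩ := Finset.mem_biUnion.1 ha
    rintro rfl
    have := hdeg m 0 ha'
    rw [map_zero] at this
    exact hI (this ▸ hm)
  · intro m _ m' _ hne
    rw [Function.onFun, Finset.disjoint_left]
    intro a ha ha'
    exact hne ((hdeg m a ha).symm.trans (hdeg m' a ha'))

theorem exists_single {a : J →₀ ℕ} {m : ℕ} (h : a.degree = m + 1) :
    ∃ l b, a = Finsupp.single l 1 + b ∧ b.degree = m := by
  have h1 : a ≠ 0 := by
    rintro rfl
    simp at h
  obtain ⟨l, hl⟩ := Finsupp.ne_iff.1 h1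
  have hl' : 1 ≤ a l := Nat.one_le_iff_ne_zero.2 (by simpa using hl)
  have e : a = Finsupp.single l 1 + (a - Finsupp.single l 1) := by
    ext i
    rw [Finsupp.add_apply, Finsupp.tsub_apply]
    rcases eq_or_ne l i with rfl | hne
    · rw [Finsupp.single_eq_same]
      omega
    · rw [Finsupp.single_eq_of_ne hne.symm]
      omega
  refine ⟨l, a - Finsupp.single l 1, e, ?_⟩
  have h2 := congrArg Finsupp.degree e
  rw [map_add, Finsupp.degree_single, h] at h2
  omega

theorem mon_single (ρ : J → ℝ) (l : J) : mon ρ (Finsupp.single l 1) = ρ l := by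
  unfold mon
  rw [Finset.prod_eq_single l]
  · simp
  · intro i _ hi
    rw [Finsupp.single_eq_of_ne hi, pow_zero]
  · intro h
    exact absurd (Finset.mem_univ _) h

/-- The norm in degree one. -/
theorem nr_deg_one {f : MvPolynomial J ℝ} (hf : f.IsHomogeneous 1) {ρ : J → ℝ}
    (hρ : ∀ l, 0 ≤ ρ l) : nr ρ f ≤ ∑ l, |f.coeff (Finsupp.single l 1)| * ρ l := by
  have hs : f.support ⊆ Finset.univ.image fun l : J => Finsupp.single l 1 := by
    intro a ha
    have h3 : Finsupp.weight (1 : J → ℕ) a = 1 := hf (MvPolynomial.mem_support_iff.1 ha)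
    have h4 : a.degree = 0 + 1 := by rw [Finsupp.degree_eq_weight_one]; exact h3
    obtain ⟨l, b, e, hb⟩ := exists_single h4
    have : b = 0 := (Finsupp.degree_eq_zero_iff b).1 hb
    rw [this, add_zero] at e
    exact Finset.mem_image.2 ⟨l, Finset.mem_univ _, e.symm⟩
  rw [nr_eq hs]
  refine (Finset.sum_image_le_of_nonneg fun a _ => ?_).trans_eq ?_
  · exact mul_nonneg (abs_nonneg _) (mon_nonneg hρ _)
  · exact Finset.sum_congr rfl fun l _ => by rw [mon_single]

/-- The norm in degree two. -/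
theorem nr_deg_two {f : MvPolynomial J ℝ} (hf : f.IsHomogeneous 2) {ρ : J → ℝ}
    (hρ : ∀ l, 0 ≤ ρ l) (sc : J → ℕ) :
    nr ρ f ≤ ∑ l, ∑ l' ∈ Finset.univ.filter (fun l' => sc l ≤ sc l'),
      |f.coeff (Finsupp.single l 1 + Finsupp.single l' 1)| * (ρ l * ρ l') := by
  have hs : f.support ⊆ (Finset.univ.sigma fun l : J => Finset.univ.filter
      (fun l' => sc l ≤ sc l')).image fun p => Finsupp.single p.1 1 + Finsupp.single p.2 1 := by
    intro a ha
    have h3 : Finsupp.weight (1 : J → ℕ) a = 2 := hf (MvPolynomial.mem_support_iff.1 ha)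
    have h4 : a.degree = 1 + 1 := by rw [Finsupp.degree_eq_weight_one]; exact h3
    obtain ⟨l, b, e, hb⟩ := exists_single h4
    obtain ⟨l', b', e', hb'⟩ := exists_single (m := 0) hb
    have : b' = 0 := (Finsupp.degree_eq_zero_iff b').1 hb'
    rw [this, add_zero] at e'
    rw [e'] at e
    rw [Finset.mem_image]
    rcases le_total (sc l) (sc l') with h | h
    · exact ⟨⟨l, l'⟩, by simp [h], e.symm⟩
    · exact ⟨⟨l', l⟩, by simp [h], by rw [e, add_comm]⟩
  rw [nr_eq hs]
  refine (Finset.sum_image_le_of_nonneg fun a _ => ?_).trans_eq ?_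
  · exact mul_nonneg (abs_nonneg _) (mon_nonneg hρ _)
  · rw [Finset.sum_sigma]
    refine Finset.sum_congr rfl fun l _ => Finset.sum_congr rfl fun l' _ => ?_
    rw [mon_add, mon_single, mon_single]

/-- A geometric sum over distinct scales. -/
theorem geo_sum {sc : J → ℕ} (hinj : Function.Injective sc) {a : ℝ} (ha0 : 0 < a) (ha1 : a ≤ 1)
    (s : Finset J) {b : ℕ} (hb : ∀ l ∈ s, b ≤ sc l) :
    ∑ l ∈ s, Real.exp (-(a * (sc l * Real.log 2))) ≤
      4 / a * Real.exp (-(a * (b * Real.log 2))) := by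
  set r := Real.exp (-(a * Real.log 2)) with hr
  have hl1 : (0.69 : ℝ) < Real.log 2 := by
    have := Real.log_two_gt_d9
    linarith
  have hl2 : Real.log 2 < (0.7 : ℝ) := by
    have := Real.log_two_lt_d9
    linarith
  have hr0 : 0 < r := Real.exp_pos _
  have e1 : ∀ i : ℕ, Real.exp (-(a * (i * Real.log 2))) = r ^ i := by
    intro i
    rw [hr, ← Real.exp_nat_mul]
    congr 1
    ring
  have hr1 : a / 4 ≤ 1 - r := by
    have h1 : r * (1 + a * Real.log 2) ≤ 1 := by
      have h2 : 1 + a * Real.log 2 ≤ Real.exp (a * Real.log 2) := by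
        linarith [Real.add_one_le_exp (a * Real.log 2)]
      calc r * (1 + a * Real.log 2) ≤ r * Real.exp (a * Real.log 2) :=
            mul_le_mul_of_nonneg_left h2 hr0.le
        _ = 1 := by rw [hr, ← Real.exp_add]; simp
    have h3 : a * 0.69 ≤ a * Real.log 2 := mul_le_mul_of_nonneg_left hl1.le ha0.le
    have h4 : a * Real.log 2 ≤ 0.7 := by nlinarith
    nlinarith
  have hrlt : r < 1 := by linarith
  simp only [e1]
  have h2 : ∑ l ∈ s, r ^ sc l ≤ r ^ b * (1 - r)⁻¹ := by
    have h3 : ∑ l ∈ s, r ^ sc l = r ^ b * ∑ l ∈ s, r ^ (sc l - b) := by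
      rw [Finset.mul_sum]
      refine Finset.sum_congr rfl fun l hl => ?_
      rw [← pow_add, Nat.add_sub_cancel' (hb l hl)]
    rw [h3]
    refine mul_le_mul_of_nonneg_left ?_ (by positivity)
    rw [← tsum_geometric_of_lt_one hr0.le hrlt]
    have h4 : ∑ l ∈ s, r ^ (sc l - b) = ∑ i ∈ s.image fun l => sc l - b, r ^ i := by
      rw [Finset.sum_image]
      intro l hl l' hl' h
      apply hinj
      have := hb l hl
      have := hb l' hl'
      simp only at h
      omega
    rw [h4]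
    exact (summable_geometric_of_lt_one hr0.le hrlt).sum_le_tsum _ fun i _ => by positivity
  refine h2.trans ?_
  have h5 : (1 - r)⁻¹ ≤ 4 / a := by
    rw [inv_le_comm₀ (by linarith) (by positivity), inv_div]
    exact hr1
  rw [mul_comm]
  exact mul_le_mul_of_nonneg_right h5 (by positivity)

/-- The number of small scales. -/
theorem card_scales {sc : J → ℕ} (hinj : Function.Injective sc) {b : ℝ} (hb : 0 ≤ b)
    (s : Finset J) (hs : ∀ l ∈ s, (sc l : ℝ) * Real.log 2 ≤ b) : (s.card : ℝ) ≤ 2 * b + 1 := by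
  have hl1 : (1 / 2 : ℝ) < Real.log 2 := by
    have := Real.log_two_gt_d9
    linarith
  have h1 : s.image sc ⊆ Finset.range (⌊2 * b⌋₊ + 1) := by
    intro i hi
    obtain ⟨l, hl, rfl⟩ := Finset.mem_image.1 hi
    rw [Finset.mem_range, Nat.lt_succ_iff, Nat.le_floor_iff (by positivity)]
    have h2 := hs l hl
    have h3 : (0 : ℝ) ≤ sc l := Nat.cast_nonneg _
    nlinarith
  have h2 := Finset.card_le_card h1
  rw [Finset.card_image_of_injective _ hinj, Finset.card_range] at h2
  have h3 : (s.card : ℝ) ≤ (⌊2 * b⌋₊ : ℝ) + 1 := by exact_mod_cast h2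
  have h4 : (⌊2 * b⌋₊ : ℝ) ≤ 2 * b := Nat.floor_le (by positivity)
  linarith

end Vale.Agent.P042.H727
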